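/-
Row 258 (S0498), block [S3] = Sec. 3 compression.tex (architect helper93).
COMBINATORICS OF THE BINARY TREE (paper-free).

* A cell below a fixed root is a word `w : List Bool`; the HEAD is the last (deepest) choice, so the children of `w` are
  `false :: w`, `true :: w`, the parent of `b :: w` is `w`, and `w <:+ w'` (suffix) means "`w'` is a descendant of `w`" (`w' ⊆ w`).
* `s3_Part w π`: the finite set of cells `π` is a partition of the cell `w`.
* `s3_cut stop k w`: descend from `w`, stop at the first cells satisfying `stop`, or after `k` steps.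
* `s3_anc tr R u = (last anchor of u, its generation)`: stopping chain started at the root `R` with transition rule `tr A u`
  ("the cell `u` becomes a new anchor when the current anchor is `A`").  Used twice: size segments and anchors of an attempt.
* `s3_pi tr R k n`: the partition `π_n` of `R` (anchors of generation `n` + cells of depth `|R|+k` of smaller generation),
  `s3_act tr R k n`: its active atoms (= anchors of generation `n`, of depth `≤ |R|+k`).
-/
import Mathlib

set_option autoImplicit false
set_option linter.unusedSectionVars false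

namespace Claimed.Agent.R258

/-! ## Partitions -/

inductive s3_Part : List Bool → Finset (List Bool) → Prop
  | leaf (w : List Bool) : s3_Part w {w}
  | node (w : List Bool) (p0 p1 : Finset (List Bool)) :
      s3_Part (false :: w) p0 → s3_Part (true :: w) p1 → s3_Part w (p0 ∪ p1)

section part
variable {w u Q Q' : List Bool} {π : Finset (List Bool)}

theorem s3_Part.suffix (h : s3_Part w π) (hQ : Q ∈ π) : w <:+ Q := by
  induction h with
  | leaf w => rw [Finset.mem_singleton.mp hQ]
  | node w p0 p1 _ _ ih0 ih1 =>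
    rcases Finset.mem_union.mp hQ with h | h
    · exact (List.suffix_cons _ _).trans (ih0 h)
    · exact (List.suffix_cons _ _).trans (ih1 h)

theorem s3_children_eq {b b' : Bool} (h0 : b :: w <:+ u) (h1 : b' :: w <:+ u) : b = b' := by
  have := List.suffix_of_suffix_length_le h0 h1 (by simp)
  have h2 := this.eq_of_length (by simp)
  simpa using h2

theorem s3_not_both_children (h0 : false :: w <:+ u) (h1 : true :: w <:+ u) : False := by
  simpa using s3_children_eq h0 h1

theorem s3_suffix_antisymm (h : w <:+ u) (h' : u <:+ w) : w = u :=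
  h.eq_of_length_le h'.length_le

theorem s3_Part.antichain (h : s3_Part w π) (hQ : Q ∈ π) (hQ' : Q' ∈ π) (hs : Q <:+ Q') : Q = Q' := by
  induction h with
  | leaf w => rw [Finset.mem_singleton.mp hQ, Finset.mem_singleton.mp hQ']
  | node w p0 p1 h0 h1 ih0 ih1 =>
    rcases Finset.mem_union.mp hQ with h | h <;> rcases Finset.mem_union.mp hQ' with h' | h'
    · exact ih0 h h'
    · exact (s3_not_both_children ((h0.suffix h).trans hs) (h1.suffix h')).elim
    · exact (s3_not_both_children (h0.suffix h') ((h1.suffix h).trans hs)).elim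
    · exact ih1 h h'

/-- a proper descendant of `w` lies below one of the children -/
theorem s3_suffix_child (h : w <:+ u) (hne : w ≠ u) : ∃ b : Bool, b :: w <:+ u := by
  obtain ⟨t, rfl⟩ := h
  rcases List.eq_nil_or_concat t with rfl | ⟨t', b, rfl⟩
  · simp at hne
  · exact ⟨b, t', by simp⟩

theorem s3_Part.cover (h : s3_Part w π) (hu : w <:+ u) : ∃ Q ∈ π, Q <:+ u ∨ u <:+ Q := by
  induction h generalizing u with
  | leaf w => exact ⟨w, Finset.mem_singleton_self _, Or.inl hu⟩
  | node w p0 p1 h0 h1 ih0 ih1 =>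
    by_cases hne : w = u
    · subst hne
      obtain ⟨Q, hQ, _⟩ := ih0 (List.suffix_refl _)
      exact ⟨Q, Finset.mem_union_left _ hQ, Or.inr ((List.suffix_cons _ _).trans (h0.suffix hQ))⟩
    · obtain ⟨b, hb⟩ := s3_suffix_child hu hne
      cases b with
      | false => obtain ⟨Q, hQ, h⟩ := ih0 hb; exact ⟨Q, Finset.mem_union_left _ hQ, h⟩
      | true => obtain ⟨Q, hQ, h⟩ := ih1 hb; exact ⟨Q, Finset.mem_union_right _ hQ, h⟩

theorem s3_Part.disjoint_node {p0 p1 : Finset (List Bool)} (h0 : s3_Part (false :: w) p0)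
    (h1 : s3_Part (true :: w) p1) : Disjoint p0 p1 := by
  rw [Finset.disjoint_left]
  intro Q hQ0 hQ1
  exact s3_not_both_children (h0.suffix hQ0) (h1.suffix hQ1)

/-- additive cell functions sum up over partitions -/
theorem s3_Part.sum_eq {α : Type*} [AddCommMonoid α] (f : List Bool → α)
    (hf : ∀ w, f w = f (false :: w) + f (true :: w)) (h : s3_Part w π) : ∑ Q ∈ π, f Q = f w := by
  induction h with
  | leaf w => simp
  | node w p0 p1 h0 h1 ih0 ih1 =>
    rw [Finset.sum_union (h0.disjoint_node h1), ih0, ih1, ← hf]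

/-- the atoms below a cell `Q` that is not strictly inside an atom form a partition of `Q` -/
theorem s3_Part.restrict (h : s3_Part w π) (hQ : w <:+ Q) (hmax : ∀ Q' ∈ π, Q' <:+ Q → Q' = Q) :
    s3_Part Q (π.filter fun Q' => Q <:+ Q') := by
  induction h with
  | leaf w =>
    have : w = Q := hmax w (Finset.mem_singleton_self _) hQ
    subst this
    have : (({w} : Finset (List Bool)).filter fun Q' => w <:+ Q') = {w} := by
      rw [Finset.filter_singleton, if_pos (List.suffix_refl _)]
    rw [this]; exact s3_Part.leaf w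
  | node w p0 p1 h0 h1 ih0 ih1 =>
    by_cases hne : w = Q
    · subst hne
      have : ((p0 ∪ p1).filter fun Q' => w <:+ Q') = p0 ∪ p1 := by
        apply Finset.filter_true_of_mem
        intro Q' hQ'
        exact (s3_Part.node w p0 p1 h0 h1).suffix hQ'
      rw [this]; exact s3_Part.node w p0 p1 h0 h1
    · obtain ⟨b, hb⟩ := s3_suffix_child hQ hne
      cases b with
      | false =>
        have : ((p0 ∪ p1).filter fun Q' => Q <:+ Q') = p0.filter fun Q' => Q <:+ Q' := by
          rw [Finset.filter_union]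
          have : (p1.filter fun Q' => Q <:+ Q') = ∅ := by
            apply Finset.filter_false_of_mem
            intro Q' hQ' hs
            exact s3_not_both_children (hb.trans hs) (h1.suffix hQ')
          rw [this, Finset.union_empty]
        rw [this]
        exact ih0 hb fun Q' hQ' => hmax Q' (Finset.mem_union_left _ hQ')
      | true =>
        have : ((p0 ∪ p1).filter fun Q' => Q <:+ Q') = p1.filter fun Q' => Q <:+ Q' := by
          rw [Finset.filter_union]
          have : (p0.filter fun Q' => Q <:+ Q') = ∅ := by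
            apply Finset.filter_false_of_mem
            intro Q' hQ' hs
            exact s3_not_both_children (h0.suffix hQ') (hb.trans hs)
          rw [this, Finset.empty_union]
        rw [this]
        exact ih1 hb fun Q' hQ' => hmax Q' (Finset.mem_union_right _ hQ')

end part

/-- bottom-up induction -/
theorem s3_induct_up (N : ℕ) (p : List Bool → Prop) (h0 : ∀ w, N ≤ w.length → p w)
    (h1 : ∀ w, p (false :: w) → p (true :: w) → p w) : ∀ w, p w := by
  have key : ∀ k (w : List Bool), N ≤ w.length + k → p w := by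
    intro k
    induction k with
    | zero => intro w hw; exact h0 w (by simpa using hw)
    | succ k ih =>
      intro w hw
      exact h1 w (ih _ (by simp; omega)) (ih _ (by simp; omega))
  intro w
  exact key N w (by omega)

theorem s3_sum_union_le {ι : Type*} [DecidableEq ι] (f : ι → ℝ) (hf : ∀ i, 0 ≤ f i) (s t : Finset ι) :
    ∑ i ∈ s ∪ t, f i ≤ ∑ i ∈ s, f i + ∑ i ∈ t, f i := by
  rw [← Finset.sum_union_inter]
  exact le_add_of_nonneg_right (Finset.sum_nonneg fun _ _ => hf _)

/-- potential lemma: sums over arbitrary finite sets of cells below `w` -/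
theorem s3_potential (f Φ : List Bool → ℝ) (hf : ∀ w, 0 ≤ f w) (h1 : ∀ w, f w ≤ Φ w)
    (h2 : ∀ w, f w + Φ (false :: w) + Φ (true :: w) ≤ Φ w) (w : List Bool) (𝒞 : Finset (List Bool))
    (h𝒞 : ∀ u ∈ 𝒞, w <:+ u) : ∑ u ∈ 𝒞, f u ≤ Φ w := by
  classical
  have key : ∀ k (w : List Bool) (𝒞 : Finset (List Bool)), (∀ u ∈ 𝒞, w <:+ u ∧ u.length ≤ w.length + k) →
      ∑ u ∈ 𝒞, f u ≤ Φ w := by
    intro k
    induction k with
    | zero =>
      intro w 𝒞 h
      have hsub : 𝒞 ⊆ {w} := by
        intro u hu
        rw [Finset.mem_singleton]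
        exact ((h u hu).1.eq_of_length_le (by simpa using (h u hu).2)).symm
      calc ∑ u ∈ 𝒞, f u ≤ ∑ u ∈ ({w} : Finset (List Bool)), f u :=
            Finset.sum_le_sum_of_subset_of_nonneg hsub fun _ _ _ => hf _
        _ = f w := by simp
        _ ≤ Φ w := h1 w
    | succ k ih =>
      intro w 𝒞 h
      have hsub : 𝒞 ⊆ {w} ∪ (𝒞.filter fun u => false :: w <:+ u) ∪ (𝒞.filter fun u => true :: w <:+ u) := by
        intro u hu
        by_cases hne : w = u
        · subst hne; simp
        · obtain ⟨b, hb⟩ := s3_suffix_child (h u hu).1 hne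
          cases b with
          | false => simp [hu, hb]
          | true => simp [hu, hb]
      have e0 := ih (false :: w) (𝒞.filter fun u => false :: w <:+ u) (by
        intro u hu
        obtain ⟨hu1, hu2⟩ := Finset.mem_filter.mp hu
        exact ⟨hu2, by have := (h u hu1).2; simp; omega⟩)
      have e1 := ih (true :: w) (𝒞.filter fun u => true :: w <:+ u) (by
        intro u hu
        obtain ⟨hu1, hu2⟩ := Finset.mem_filter.mp hu
        exact ⟨hu2, by have := (h u hu1).2; simp; omega⟩)
      calc ∑ u ∈ 𝒞, f u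
          ≤ ∑ u ∈ {w} ∪ (𝒞.filter fun u => false :: w <:+ u) ∪ (𝒞.filter fun u => true :: w <:+ u), f u :=
            Finset.sum_le_sum_of_subset_of_nonneg hsub fun _ _ _ => hf _
        _ ≤ ∑ u ∈ {w} ∪ (𝒞.filter fun u => false :: w <:+ u), f u
              + ∑ u ∈ (𝒞.filter fun u => true :: w <:+ u), f u := s3_sum_union_le f hf _ _
        _ ≤ (∑ u ∈ ({w} : Finset (List Bool)), f u + ∑ u ∈ (𝒞.filter fun u => false :: w <:+ u), f u)
              + ∑ u ∈ (𝒞.filter fun u => true :: w <:+ u), f u := by
            gcongr; exact s3_sum_union_le f hf _ _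
        _ ≤ f w + Φ (false :: w) + Φ (true :: w) := by
            rw [Finset.sum_singleton]; linarith
        _ ≤ Φ w := h2 w
  refine key (𝒞.sup List.length) w 𝒞 fun u hu => ⟨h𝒞 u hu, ?_⟩
  have := Finset.le_sup (f := List.length) hu
  omega

/-! ## Cuts -/

open Classical in
/-- descend from `w`; stop at the first cells satisfying `stop`, or after `k` steps -/
noncomputable def s3_cut (stop : List Bool → Prop) : ℕ → List Bool → Finset (List Bool)
  | 0, w => {w}
  | k + 1, w => if stop w then {w} else s3_cut stop k (false :: w) ∪ s3_cut stop k (true :: w)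

section cut
variable {stop stop' : List Bool → Prop} {k : ℕ} {w Q Q' : List Bool}

theorem s3_cut_part (stop : List Bool → Prop) (k : ℕ) (w : List Bool) : s3_Part w (s3_cut stop k w) := by
  induction k generalizing w with
  | zero => exact s3_Part.leaf w
  | succ k ih =>
    rw [s3_cut]
    split_ifs
    · exact s3_Part.leaf w
    · exact s3_Part.node w _ _ (ih _) (ih _)

theorem s3_mem_cut_zero : Q ∈ s3_cut stop 0 w ↔ Q = w := by
  rw [s3_cut, Finset.mem_singleton]

theorem s3_mem_cut_succ_pos (h : stop w) : Q ∈ s3_cut stop (k + 1) w ↔ Q = w := by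
  rw [s3_cut, if_pos h, Finset.mem_singleton]

theorem s3_mem_cut_succ_neg (h : ¬ stop w) : Q ∈ s3_cut stop (k + 1) w ↔ ∃ b : Bool, Q ∈ s3_cut stop k (b :: w) := by
  rw [s3_cut, if_neg h, Finset.mem_union]
  constructor
  · rintro (h | h)
    · exact ⟨false, h⟩
    · exact ⟨true, h⟩
  · rintro ⟨b, h⟩
    cases b with
    | false => exact Or.inl h
    | true => exact Or.inr h

theorem s3_mem_cut_iff : Q ∈ s3_cut stop k w ↔
    w <:+ Q ∧ Q.length ≤ w.length + k ∧ (stop Q ∨ Q.length = w.length + k) ∧
      ∀ u, w <:+ u → u <:+ Q → u ≠ Q → ¬ stop u := by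
  induction k generalizing w with
  | zero =>
    rw [s3_mem_cut_zero]
    constructor
    · rintro rfl
      exact ⟨List.suffix_refl _, le_rfl, Or.inr rfl, fun u h1 h2 h3 => (h3 (s3_suffix_antisymm h2 h1)).elim⟩
    · rintro ⟨h1, h2, -, -⟩
      exact (h1.eq_of_length_le h2).symm
  | succ k ih =>
    by_cases hs : stop w
    · rw [s3_mem_cut_succ_pos hs]
      constructor
      · rintro rfl
        exact ⟨List.suffix_refl _, by omega, Or.inl hs,
          fun u h1 h2 h3 => (h3 (s3_suffix_antisymm h2 h1)).elim⟩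
      · rintro ⟨h1, -, -, h4⟩
        by_contra hne
        exact h4 w (List.suffix_refl _) h1 (fun h => hne h.symm) hs
    · rw [s3_mem_cut_succ_neg hs]
      constructor
      · rintro ⟨b, hb⟩
        obtain ⟨h1, h2, h3, h4⟩ := ih.mp hb
        rw [List.length_cons] at h2 h3
        refine ⟨(List.suffix_cons _ _).trans h1, by omega, ?_, ?_⟩
        · rcases h3 with h3 | h3
          · exact Or.inl h3
          · exact Or.inr (by omega)
        · intro u hu1 hu2 hu3
          by_cases hne : w = u
          · subst hne; exact hs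
          · obtain ⟨b', hb'⟩ := s3_suffix_child hu1 hne
            have : b' = b := s3_children_eq (hb'.trans hu2) h1
            subst this
            exact h4 u hb' hu2 hu3
      · rintro ⟨h1, h2, h3, h4⟩
        have hne : w ≠ Q := by
          rintro rfl
          rcases h3 with h3 | h3
          · exact hs h3
          · omega
        obtain ⟨b, hb⟩ := s3_suffix_child h1 hne
        refine ⟨b, ih.mpr ⟨hb, ?_, ?_, ?_⟩⟩
        · rw [List.length_cons]; omega
        · rw [List.length_cons]
          rcases h3 with h3 | h3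
          · exact Or.inl h3
          · exact Or.inr (by omega)
        · intro u hu1 hu2 hu3
          exact h4 u ((List.suffix_cons _ _).trans hu1) hu2 hu3

theorem s3_cut_refines (h : ∀ u, stop' u → stop u) (hQ' : Q' ∈ s3_cut stop' k w) :
    ∃ Q ∈ s3_cut stop k w, Q <:+ Q' := by
  induction k generalizing w with
  | zero =>
    rw [s3_mem_cut_zero] at hQ'
    subst hQ'
    exact ⟨Q', s3_mem_cut_zero.mpr rfl, List.suffix_refl _⟩
  | succ k ih =>
    by_cases hs : stop w
    · exact ⟨w, (s3_mem_cut_succ_pos hs).mpr rfl, (s3_cut_part stop' (k + 1) w).suffix hQ'⟩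
    · have hs' : ¬ stop' w := fun h' => hs (h w h')
      obtain ⟨b, hb⟩ := (s3_mem_cut_succ_neg hs').mp hQ'
      obtain ⟨Q, hQ, hQQ⟩ := ih hb
      exact ⟨Q, (s3_mem_cut_succ_neg hs).mpr ⟨b, hQ⟩, hQQ⟩

end cut

/-! ## Stopping chains -/

open Classical in
/-- `(last anchor, generation)` of the cell `u` in the stopping chain started at `R` (junk if `u` is not below `R`) -/
noncomputable def s3_anc (tr : List Bool → List Bool → Prop) (R : List Bool) : List Bool → List Bool × ℕ
  | [] => (R, 0)
  | b :: w => if b :: w = R then (R, 0) else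
      if tr (s3_anc tr R w).1 (b :: w) then (b :: w, (s3_anc tr R w).2 + 1) else s3_anc tr R w

/-- the last anchor above (or equal to) `u` -/
noncomputable def s3_top (tr : List Bool → List Bool → Prop) (R u : List Bool) : List Bool := (s3_anc tr R u).1
/-- its generation -/
noncomputable def s3_gen (tr : List Bool → List Bool → Prop) (R u : List Bool) : ℕ := (s3_anc tr R u).2

/-- the partition `π_n` of `R`, with depth budget `k` -/
noncomputable def s3_pi (tr : List Bool → List Bool → Prop) (R : List Bool) (k n : ℕ) : Finset (List Bool) :=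
  s3_cut (fun u => n ≤ s3_gen tr R u) k R

open Classical in
/-- the active atoms of `π_n` = anchors of generation `n` and depth `≤ |R| + k` -/
noncomputable def s3_act (tr : List Bool → List Bool → Prop) (R : List Bool) (k n : ℕ) : Finset (List Bool) :=
  (s3_pi tr R k n).filter fun u => n ≤ s3_gen tr R u

section anc
variable {tr : List Bool → List Bool → Prop} {R u u' w Q Q' : List Bool} {b : Bool} {k n n' : ℕ}

theorem s3_anc_root (tr : List Bool → List Bool → Prop) (R : List Bool) : s3_anc tr R R = (R, 0) := by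
  cases R with
  | nil => rw [s3_anc]
  | cons b w => rw [s3_anc, if_pos rfl]

theorem s3_cons_ne_of_suffix (h : R <:+ w) : b :: w ≠ R := by
  rintro rfl
  have := h.length_le
  simp at this

theorem s3_anc_cons_pos (h : R <:+ w) (ht : tr (s3_anc tr R w).1 (b :: w)) :
    s3_anc tr R (b :: w) = (b :: w, (s3_anc tr R w).2 + 1) := by
  rw [s3_anc, if_neg (s3_cons_ne_of_suffix h), if_pos ht]

theorem s3_anc_cons_neg (h : R <:+ w) (ht : ¬ tr (s3_anc tr R w).1 (b :: w)) :
    s3_anc tr R (b :: w) = s3_anc tr R w := by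
  rw [s3_anc, if_neg (s3_cons_ne_of_suffix h), if_neg ht]

theorem s3_top_root (tr : List Bool → List Bool → Prop) (R : List Bool) : s3_top tr R R = R := by
  rw [s3_top, s3_anc_root]

theorem s3_gen_root (tr : List Bool → List Bool → Prop) (R : List Bool) : s3_gen tr R R = 0 := by
  rw [s3_gen, s3_anc_root]

theorem s3_top_cons_pos (h : R <:+ w) (ht : tr (s3_top tr R w) (b :: w)) : s3_top tr R (b :: w) = b :: w := by
  rw [s3_top, s3_anc_cons_pos h ht]

theorem s3_gen_cons_pos (h : R <:+ w) (ht : tr (s3_top tr R w) (b :: w)) :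
    s3_gen tr R (b :: w) = s3_gen tr R w + 1 := by
  rw [s3_gen, s3_anc_cons_pos h ht, s3_gen]

theorem s3_top_cons_neg (h : R <:+ w) (ht : ¬ tr (s3_top tr R w) (b :: w)) :
    s3_top tr R (b :: w) = s3_top tr R w := by
  rw [s3_top, s3_anc_cons_neg h ht, s3_top]

theorem s3_gen_cons_neg (h : R <:+ w) (ht : ¬ tr (s3_top tr R w) (b :: w)) :
    s3_gen tr R (b :: w) = s3_gen tr R w := by
  rw [s3_gen, s3_anc_cons_neg h ht, s3_gen]

/-- induction over the descendants of `R` -/
theorem s3_suffix_induct {R : List Bool} (p : List Bool → Prop) (h0 : p R)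
    (h1 : ∀ (b : Bool) (w : List Bool), R <:+ w → p w → p (b :: w)) : ∀ u, R <:+ u → p u := by
  intro u
  induction u with
  | nil => intro h; rw [List.suffix_nil] at h; subst h; exact h0
  | cons b w ih =>
    intro h
    rcases List.suffix_cons_iff.mp h with h | h
    · subst h; exact h0
    · exact h1 b w h (ih h)

theorem s3_root_suffix_top (h : R <:+ u) : R <:+ s3_top tr R u := by
  refine s3_suffix_induct (fun u => R <:+ s3_top tr R u) ?_ ?_ u h
  · rw [s3_top_root]
  · intro b w hw ih
    by_cases ht : tr (s3_top tr R w) (b :: w)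
    · rw [s3_top_cons_pos hw ht]; exact hw.trans (List.suffix_cons _ _)
    · rw [s3_top_cons_neg hw ht]; exact ih

theorem s3_top_suffix (h : R <:+ u) : s3_top tr R u <:+ u := by
  refine s3_suffix_induct (fun u => s3_top tr R u <:+ u) ?_ ?_ u h
  · rw [s3_top_root]
  · intro b w hw ih
    by_cases ht : tr (s3_top tr R w) (b :: w)
    · rw [s3_top_cons_pos hw ht]
    · rw [s3_top_cons_neg hw ht]; exact ih.trans (List.suffix_cons _ _)

theorem s3_top_top (h : R <:+ u) : s3_top tr R (s3_top tr R u) = s3_top tr R u := by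
  refine s3_suffix_induct (fun u => s3_top tr R (s3_top tr R u) = s3_top tr R u) ?_ ?_ u h
  · rw [s3_top_root, s3_top_root]
  · intro b w hw ih
    by_cases ht : tr (s3_top tr R w) (b :: w)
    · rw [s3_top_cons_pos hw ht, s3_top_cons_pos hw ht]
    · rw [s3_top_cons_neg hw ht]; exact ih

theorem s3_gen_top (h : R <:+ u) : s3_gen tr R (s3_top tr R u) = s3_gen tr R u := by
  refine s3_suffix_induct (fun u => s3_gen tr R (s3_top tr R u) = s3_gen tr R u) ?_ ?_ u h
  · rw [s3_top_root]
  · intro b w hw ih
    by_cases ht : tr (s3_top tr R w) (b :: w)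
    · rw [s3_top_cons_pos hw ht]
    · rw [s3_top_cons_neg hw ht, s3_gen_cons_neg hw ht]; exact ih

theorem s3_gen_cons_le (h : R <:+ w) : s3_gen tr R w ≤ s3_gen tr R (b :: w) ∧
    s3_gen tr R (b :: w) ≤ s3_gen tr R w + 1 := by
  by_cases ht : tr (s3_top tr R w) (b :: w)
  · rw [s3_gen_cons_pos h ht]; omega
  · rw [s3_gen_cons_neg h ht]; omega

theorem s3_gen_mono (h : R <:+ u) (h' : u <:+ u') : s3_gen tr R u ≤ s3_gen tr R u' := by
  refine s3_suffix_induct (fun u' => s3_gen tr R u ≤ s3_gen tr R u') le_rfl ?_ u' h'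
  intro b w hw ih
  exact ih.trans (s3_gen_cons_le (h.trans hw)).1

theorem s3_gen_le_length (h : R <:+ u) : s3_gen tr R u + R.length ≤ u.length := by
  refine s3_suffix_induct (fun u => s3_gen tr R u + R.length ≤ u.length) ?_ ?_ u h
  · rw [s3_gen_root]; omega
  · intro b w hw ih
    have := (s3_gen_cons_le (tr := tr) (b := b) hw).2
    rw [List.length_cons]; omega

/-- a cell below `R` is `R` or a child of a cell below `R` -/
theorem s3_suffix_cases (h : R <:+ u) : u = R ∨ ∃ (b : Bool) (w : List Bool), u = b :: w ∧ R <:+ w := by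
  cases u with
  | nil => left; rw [List.suffix_nil] at h; exact h.symm
  | cons b w =>
    rcases List.suffix_cons_iff.mp h with h | h
    · exact Or.inl h.symm
    · exact Or.inr ⟨b, w, rfl, h⟩

/-- a cell that is not an anchor did not trigger the transition rule of its anchor -/
theorem s3_not_tr (h : R <:+ u) (hne : s3_top tr R u ≠ u) : ¬ tr (s3_top tr R u) u := by
  rcases s3_suffix_cases h with rfl | ⟨b, w, rfl, hw⟩
  · exact (hne (s3_top_root _ _)).elim
  · by_cases ht : tr (s3_top tr R w) (b :: w)
    · exact (hne (s3_top_cons_pos hw ht)).elim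
    · rw [s3_top_cons_neg hw ht]; exact ht

theorem s3_pi_part (tr : List Bool → List Bool → Prop) (R : List Bool) (k n : ℕ) : s3_Part R (s3_pi tr R k n) :=
  s3_cut_part _ _ _

theorem s3_act_subset (tr : List Bool → List Bool → Prop) (R : List Bool) (k n : ℕ) :
    s3_act tr R k n ⊆ s3_pi tr R k n := Finset.filter_subset _ _

theorem s3_pi_refines (hn : n ≤ n') (hQ' : Q' ∈ s3_pi tr R k n') : ∃ Q ∈ s3_pi tr R k n, Q <:+ Q' :=
  s3_cut_refines (fun _ hu => hn.trans hu) hQ'

theorem s3_pi_length (hQ : Q ∈ s3_pi tr R k n) : Q.length ≤ R.length + k := (s3_mem_cut_iff.mp hQ).2.1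

/-- an inactive atom has full depth -/
theorem s3_pi_inactive (hQ : Q ∈ s3_pi tr R k n) (hg : s3_gen tr R Q < n) : Q.length = R.length + k := by
  rcases (s3_mem_cut_iff.mp hQ).2.2.1 with h | h
  · exact absurd h (not_le.mpr hg)
  · exact h

/-- a jump of the generation is a transition -/
theorem s3_tr_of_gen_lt (h : R <:+ w) (hg : s3_gen tr R w < s3_gen tr R (b :: w)) :
    tr (s3_top tr R w) (b :: w) := by
  by_contra ht
  rw [s3_gen_cons_neg h ht] at hg
  omega

theorem s3_act_spec (hQ : Q ∈ s3_act tr R k n) :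
    R <:+ Q ∧ Q.length ≤ R.length + k ∧ s3_gen tr R Q = n ∧ s3_top tr R Q = Q := by
  obtain ⟨hQ1, hQ2⟩ := Finset.mem_filter.mp hQ
  obtain ⟨h1, h2, -, h4⟩ := s3_mem_cut_iff.mp hQ1
  refine ⟨h1, h2, ?_⟩
  rcases s3_suffix_cases h1 with rfl | ⟨b, w, rfl, hw⟩
  · rw [s3_gen_root] at hQ2 ⊢
    exact ⟨by omega, s3_top_root _ _⟩
  · have h5 := h4 w hw (List.suffix_cons _ _) (fun h => by simpa using congrArg List.length h)
    have h6 := (s3_gen_cons_le (tr := tr) (b := b) hw).2
    have ht := s3_tr_of_gen_lt (tr := tr) (b := b) hw (by omega)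
    exact ⟨by omega, s3_top_cons_pos hw ht⟩

/-- an anchor of generation `n+1` was created by a transition from the anchor (of generation `n`) of its parent -/
theorem s3_act_succ (hQ : Q ∈ s3_act tr R k (n + 1)) :
    ∃ b w, Q = b :: w ∧ R <:+ w ∧ s3_gen tr R w = n ∧ tr (s3_top tr R w) Q := by
  obtain ⟨hQ1, hQ2⟩ := Finset.mem_filter.mp hQ
  obtain ⟨h1, h2, -, h4⟩ := s3_mem_cut_iff.mp hQ1
  rcases s3_suffix_cases h1 with rfl | ⟨b, w, rfl, hw⟩
  · rw [s3_gen_root] at hQ2
    omega
  · have h5 := h4 w hw (List.suffix_cons _ _) (fun h => by simpa using congrArg List.length h)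
    have h6 := (s3_gen_cons_le (tr := tr) (b := b) hw).2
    have ht := s3_tr_of_gen_lt (tr := tr) (b := b) hw (by omega)
    exact ⟨b, w, rfl, hw, by omega, ht⟩

/-- cells strictly above an anchor have smaller generation -/
theorem s3_gen_lt_of_anchor (h : R <:+ u) (hQ : s3_top tr R Q = Q) (hu : u <:+ Q) (hne : u ≠ Q) :
    s3_gen tr R u < s3_gen tr R Q := by
  rcases s3_suffix_cases (h.trans hu) with rfl | ⟨b, w, rfl, hw⟩
  · exact (hne (s3_suffix_antisymm hu h)).elim
  · have huw : u <:+ w := by
      rcases List.suffix_cons_iff.mp hu with h' | h'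
      · exact (hne h').elim
      · exact h'
    have ht : tr (s3_top tr R w) (b :: w) := by
      by_contra ht
      rw [s3_top_cons_neg hw ht] at hQ
      have := (s3_top_suffix (tr := tr) hw).length_le
      rw [hQ] at this
      simp at this
    rw [s3_gen_cons_pos hw ht]
    have := s3_gen_mono (tr := tr) h huw
    omega

theorem s3_top_mem_act (h : R <:+ u) (hk : u.length ≤ R.length + k) :
    s3_top tr R u ∈ s3_act tr R k (s3_gen tr R u) := by
  refine Finset.mem_filter.mpr ⟨s3_mem_cut_iff.mpr ⟨s3_root_suffix_top h, ?_, Or.inl (s3_gen_top h).ge, ?_⟩,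
    (s3_gen_top h).ge⟩
  · exact (s3_top_suffix h).length_le.trans hk
  · intro v hv1 hv2 hv3
    have := s3_gen_lt_of_anchor hv1 (s3_top_top h) hv2 hv3
    rw [s3_gen_top h] at this
    omega

/-- every cell of generation `≥ n` lies below an anchor of generation `n` -/
theorem s3_exists_act (h : R <:+ u) (hk : u.length ≤ R.length + k) (hn : n ≤ s3_gen tr R u) :
    ∃ Q ∈ s3_act tr R k n, Q <:+ u := by
  revert hk hn
  refine s3_suffix_induct (fun u => u.length ≤ R.length + k → n ≤ s3_gen tr R u →
    ∃ Q ∈ s3_act tr R k n, Q <:+ u) ?_ ?_ u h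
  · intro hk hn
    have h0 := s3_top_mem_act (tr := tr) (k := k) (List.suffix_refl R) (by omega)
    rw [s3_gen_root] at hn h0
    rw [s3_top_root] at h0
    have : n = 0 := by omega
    subst this
    exact ⟨R, h0, List.suffix_refl _⟩
  · intro b w hw ih hk hn
    rw [List.length_cons] at hk
    by_cases hn' : n ≤ s3_gen tr R w
    · obtain ⟨Q, hQ, hQw⟩ := ih (by omega) hn'
      exact ⟨Q, hQ, hQw.trans (List.suffix_cons _ _)⟩
    · have h6 := (s3_gen_cons_le (tr := tr) (b := b) hw).2
      have ht := s3_tr_of_gen_lt (tr := tr) (b := b) hw (by omega)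
      have h0 := s3_top_mem_act (tr := tr) (k := k) (u := b :: w) (hw.trans (List.suffix_cons _ _))
        (by rw [List.length_cons]; omega)
      rw [s3_top_cons_pos hw ht] at h0
      have : s3_gen tr R (b :: w) = n := by omega
      rw [this] at h0
      exact ⟨b :: w, h0, List.suffix_refl _⟩

/-- no atom of `π_{n}` strictly contains a cell of generation `< n` -/
theorem s3_pi_max (h : R <:+ u) (hk : u.length ≤ R.length + k) (hn : s3_gen tr R u < n) :
    ∀ Q' ∈ s3_pi tr R k n, Q' <:+ u → Q' = u := by
  intro Q' hQ' hs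
  obtain ⟨h1, h2, h3, -⟩ := s3_mem_cut_iff.mp hQ'
  rcases h3 with h3 | h3
  · have := s3_gen_mono (tr := tr) h1 hs
    omega
  · exact hs.eq_of_length_le (by omega)

/-- the atoms of `π_{n'}` below an atom of `π_n`, `n ≤ n'`, partition it -/
theorem s3_pi_restrict (hn : n ≤ n') (hQ : Q ∈ s3_pi tr R k n) :
    s3_Part Q ((s3_pi tr R k n').filter fun Q' => Q <:+ Q') := by
  refine (s3_pi_part tr R k n').restrict ((s3_pi_part tr R k n).suffix hQ) ?_
  intro Q' hQ' hs
  obtain ⟨Q'', hQ'', hs'⟩ := s3_pi_refines hn hQ'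
  have := (s3_pi_part tr R k n).antichain hQ'' hQ (hs'.trans hs)
  subst this
  exact s3_suffix_antisymm hs hs'

/-- anchors of the same generation are pairwise incomparable -/
theorem s3_act_antichain (hQ : Q ∈ s3_act tr R k n) (hQ' : Q' ∈ s3_act tr R k n) (hs : Q <:+ Q') : Q = Q' :=
  (s3_pi_part tr R k n).antichain (s3_act_subset tr R k n hQ) (s3_act_subset tr R k n hQ') hs

/-- every anchor of generation `n' ≥ n` lies below exactly one anchor of generation `n` -/
theorem s3_act_fiber {α : Type*} [AddCommMonoid α] (F : List Bool → α) (hn : n ≤ n') :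
    ∑ K ∈ s3_act tr R k n, ∑ K' ∈ (s3_act tr R k n').filter (fun K' => K <:+ K'), F K'
      = ∑ K' ∈ s3_act tr R k n', F K' := by
  classical
  simp_rw [Finset.sum_filter]
  rw [Finset.sum_comm]
  refine Finset.sum_congr rfl fun K' hK' => ?_
  obtain ⟨h1, h2, h3, -⟩ := s3_act_spec hK'
  obtain ⟨K0, hK0, hs0⟩ := s3_exists_act (tr := tr) (n := n) h1 h2 (by omega)
  rw [Finset.sum_eq_single K0, if_pos hs0]
  · intro K hK hne
    rw [if_neg]
    intro hs
    apply hne
    rcases le_total K.length K0.length with hl | hl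
    · exact s3_act_antichain hK hK0 (List.suffix_of_suffix_length_le hs hs0 hl)
    · exact (s3_act_antichain hK0 hK (List.suffix_of_suffix_length_le hs0 hs hl)).symm
  · intro h; exact (h hK0).elim

/-- sub-collections of a partition -/
theorem s3_act_sum_le (f : List Bool → ℝ) (hf0 : ∀ w, 0 ≤ f w)
    (hf : ∀ w, f w = f (false :: w) + f (true :: w)) : ∑ Q ∈ s3_act tr R k n, f Q ≤ f R := by
  rw [← (s3_pi_part tr R k n).sum_eq f hf]
  exact Finset.sum_le_sum_of_subset_of_nonneg (s3_act_subset tr R k n) fun _ _ _ => hf0 _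

/-- the anchors of generation `n' ≥ n` below an anchor `K` of generation `n`: sub-collection of a partition of `K` -/
theorem s3_act_filter_sum_le (f : List Bool → ℝ) (hf0 : ∀ w, 0 ≤ f w)
    (hf : ∀ w, f w = f (false :: w) + f (true :: w)) (hn : n ≤ n') (hQ : Q ∈ s3_act tr R k n) :
    ∑ Q' ∈ (s3_act tr R k n').filter (fun Q' => Q <:+ Q'), f Q' ≤ f Q := by
  rw [← (s3_pi_restrict hn (s3_act_subset tr R k n hQ)).sum_eq f hf]
  exact Finset.sum_le_sum_of_subset_of_nonneg
    (Finset.filter_subset_filter _ (s3_act_subset tr R k n')) fun _ _ _ => hf0 _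

/-- the active mass decreases -/
theorem s3_act_sum_anti (f : List Bool → ℝ) (hf0 : ∀ w, 0 ≤ f w)
    (hf : ∀ w, f w = f (false :: w) + f (true :: w)) (hn : n ≤ n') :
    ∑ Q ∈ s3_act tr R k n', f Q ≤ ∑ Q ∈ s3_act tr R k n, f Q := by
  rw [← s3_act_fiber (tr := tr) (R := R) (k := k) f hn]
  exact Finset.sum_le_sum fun K hK => s3_act_filter_sum_le f hf0 hf hn hK

/-- cells between an anchor and the next transitions keep this anchor -/
theorem s3_top_eq_of_gen_eq (h : R <:+ Q) (hQ : s3_top tr R Q = Q) (hu : Q <:+ u)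
    (hg : s3_gen tr R u = s3_gen tr R Q) : s3_top tr R u = Q := by
  revert hg
  refine s3_suffix_induct (fun u => s3_gen tr R u = s3_gen tr R Q → s3_top tr R u = Q) (fun _ => hQ) ?_ u hu
  intro b w hw ih hg
  have h1 := s3_gen_mono (tr := tr) h hw
  have h2 := (s3_gen_cons_le (tr := tr) (b := b) (h.trans hw)).1
  have ht : ¬ tr (s3_top tr R w) (b :: w) := by
    intro ht
    rw [s3_gen_cons_pos (h.trans hw) ht] at hg
    omega
  rw [s3_top_cons_neg (h.trans hw) ht]
  exact ih (by omega)

theorem s3_act_disjoint (hn : n ≠ n') : Disjoint (s3_act tr R k n) (s3_act tr R k n') := by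
  rw [Finset.disjoint_left]
  intro Q hQ hQ'
  exact hn ((s3_act_spec hQ).2.2.1.symm.trans (s3_act_spec hQ').2.2.1)

end anc

end Claimed.Agent.R258
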