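/-
Row 258 (S0498), block [S3] = Sec. 3 compression.tex (architect helper93).
`lem:compression`, paragraph "Size segments and a bounded moment representative", abstract system.

* Stopping roots `𝒮` = anchors of the stopping chain `s3_anc (S.trS z) []` (transition: the average more than doubles);
  rank `r` roots of depth `≤ N` = `s3_act (S.trS z) [] N r`;  `𝒯_K = {u : s3_top u = K}`.
* cut partition `π_K` = atoms of `π_{r+1}` below `K`;  `g_K = 1_K P^1_{π_{r+1}} z` (`gK`; we use the ORIGINAL masks on the cut cells,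
  which contain all first layer labels used on `𝒯_K` above the cut cell, by inheritance).
* `∑ a_K² |K| ≤ 4 ‖z‖²` is proved by a potential (Bellman) induction, no maximal function:
  `Φ(w) = 4‖1_w z‖² - 4 a L1(w) + a²|w| + [w root] a²|w|`, `a = avg (top w)`.
* `∑ ‖g_K‖² ≤ (L + 8) ‖z‖²` if `G ≤ 2^L`: split `⟨z, g_K⟩` at the stopping roots `L` ranks below `K`
  (far part: `a_K ≤ 2^{-L} a_{K'}`; near part: telescoping in the rank).
-/
import Claimed.Agent.R258.S3.Bounded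

set_option autoImplicit false
set_option linter.unusedSectionVars false

namespace Claimed.Agent.R258

open scoped InnerProductSpace

variable {𝕜 X V : Type*} [RCLike 𝕜] [NormedAddCommGroup X] [InnerProductSpace 𝕜 X]

namespace s3_Sys

variable (S : s3_Sys 𝕜 X V) (z : X)

/-- transition rule of the size segments: the average more than doubles -/
def trS (A u : List Bool) : Prop := 2 * S.avg z A < S.avg z u

/-- the bounded moment representative `g_K` -/
noncomputable def gK (M0 : List Bool → Finset V) (N : ℕ) (K : List Bool) : X :=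
  S.E K (S.PP M0 (s3_pi (S.trS z) [] N (s3_gen (S.trS z) [] K + 1)) z)

/-- Pythagoras for an antichain below `K` -/
theorem normsq_sub_sum (K : List Bool) (F : Finset (List Bool)) (hF : ∀ Q ∈ F, K <:+ Q)
    (hanti : ∀ Q ∈ F, ∀ Q' ∈ F, Q <:+ Q' → Q = Q') (x : X) :
    ‖S.E K x - ∑ Q ∈ F, S.E Q x‖ ^ 2 = ‖S.E K x‖ ^ 2 - ∑ Q ∈ F, ‖S.E Q x‖ ^ 2 := by
  have h1 : ∀ Q ∈ F, ⟪S.E K x, S.E Q x⟫_𝕜 = ((‖S.E Q x‖ ^ 2 : ℝ) : 𝕜) := by
    intro Q hQ
    rw [S.E_symm, S.E_comp_sub (hF Q hQ)]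
    exact s3_inner_self_proj (S.E Q) (S.E_symm Q) (S.E_idem Q) x
  have h2 : ∀ Q ∈ F, ∀ Q' ∈ F, Q ≠ Q' → ⟪S.E Q x, S.E Q' x⟫_𝕜 = 0 := by
    intro Q hQ Q' hQ' hne
    rw [S.E_symm, S.E_incomp (fun h => hne (hanti Q hQ Q' hQ' h)) (fun h => hne (hanti Q' hQ' Q hQ h).symm),
      inner_zero_right]
  have h3 := norm_sub_sq (𝕜 := 𝕜) (S.E K x) (∑ Q ∈ F, S.E Q x)
  rw [s3_normsq_sum_orth F _ h2, inner_sum, Finset.sum_congr rfl h1] at h3
  have h4 : RCLike.re (∑ k ∈ F, ((‖S.E k x‖ ^ 2 : ℝ) : 𝕜)) = ∑ k ∈ F, ‖S.E k x‖ ^ 2 := by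
    rw [← RCLike.ofReal_sum, RCLike.ofReal_re]
  rw [h4] at h3
  linarith

variable {N r L : ℕ} {K K' Q u : List Bool} {M0 : List Bool → Finset V}

/-- cells of `𝒯_K` have average at most `2 a_K` -/
theorem avg_le_of_top (u : List Bool) : S.avg z u ≤ 2 * S.avg z (s3_top (S.trS z) [] u) := by
  by_cases hne : s3_top (S.trS z) [] u = u
  · rw [hne]; have := S.avg_nonneg z u; linarith
  · exact not_lt.mp (s3_not_tr List.nil_suffix hne)

/-- on a cut cell the average is at most `4 a_K` -/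
theorem avg_cut_le (hK : K ∈ s3_act (S.trS z) [] N r) (hQ : Q ∈ s3_pi (S.trS z) [] N (r + 1)) (h : K <:+ Q) :
    S.avg z Q ≤ 4 * S.avg z K := by
  obtain ⟨-, hK2, hK3, hK4⟩ := s3_act_spec hK
  rcases s3_suffix_cases h with rfl | ⟨b, w, rfl, hw⟩
  · have := S.avg_nonneg z Q; linarith
  · have h4 := (s3_mem_cut_iff.mp hQ).2.2.2 w List.nil_suffix (List.suffix_cons _ _)
      (fun h => by simpa using congrArg List.length h)
    have h5 := s3_gen_mono (tr := S.trS z) (R := []) List.nil_suffix hw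
    have h6 : s3_top (S.trS z) [] w = K := s3_top_eq_of_gen_eq List.nil_suffix hK4 hw (by omega)
    have h7 := S.avg_le_of_top z w
    rw [h6] at h7
    have h8 := S.avg_child_le z b w
    linarith

/-- stopping averages more than double -/
theorem avg_chain (hK : K ∈ s3_act (S.trS z) [] N r) (hK' : K' ∈ s3_act (S.trS z) [] N (r + L)) (h : K <:+ K') :
    2 ^ L * S.avg z K ≤ S.avg z K' := by
  induction L generalizing K' with
  | zero =>
    have : K = K' := s3_act_antichain hK hK' h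
    subst this; simp
  | succ L ih =>
    obtain ⟨-, hK'2, -, -⟩ := s3_act_spec hK'
    obtain ⟨b, w, rfl, -, hw2, hw3⟩ := s3_act_succ (n := r + L) hK'
    rw [List.length_cons] at hK'2
    have hwN : w.length ≤ ([] : List Bool).length + N := by omega
    have htop := s3_top_mem_act (tr := S.trS z) (R := []) (k := N) (u := w) List.nil_suffix hwN
    rw [hw2] at htop
    have hKw : K <:+ w := by
      rcases List.suffix_cons_iff.mp h with h' | h'
      · exfalso
        have e1 := (s3_act_spec hK).2.2.1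
        have e2 := (s3_act_spec hK').2.2.1
        rw [h'] at e1
        omega
      · exact h'
    have hKt : K <:+ s3_top (S.trS z) [] w := by
      obtain ⟨ht1, ht2, ht3, -⟩ := s3_act_spec htop
      obtain ⟨Q, hQ, hQt⟩ := s3_exists_act (tr := S.trS z) (n := r) ht1 ht2 (by omega)
      have hQw : Q <:+ w := hQt.trans (s3_top_suffix List.nil_suffix)
      have : Q = K := by
        rcases le_total Q.length K.length with hl | hl
        · exact s3_act_antichain hQ hK (List.suffix_of_suffix_length_le hQw hKw hl)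
        · exact (s3_act_antichain hK hQ (List.suffix_of_suffix_length_le hKw hQw hl)).symm
      rw [← this]; exact hQt
    have h1 := ih htop hKt
    have h2 : 2 * S.avg z (s3_top (S.trS z) [] w) < S.avg z (b :: w) := hw3
    rw [pow_succ]
    linarith

theorem gK_supp (M0 : List Bool → Finset V) (N : ℕ) (K : List Bool) : S.E K (S.gK z M0 N K) = S.gK z M0 N K :=
  S.E_idem K _

/-- `g_K` is the projection of `z` attached to the cut partition of `K` -/
theorem gK_eq (M0 : List Bool → Finset V) (hK : K ∈ s3_act (S.trS z) [] N r) :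
    S.gK z M0 N K = S.PP M0 ((s3_pi (S.trS z) [] N (r + 1)).filter fun Q => K <:+ Q) z := by
  obtain ⟨hK1, hK2, hK3, -⟩ := s3_act_spec hK
  unfold gK
  rw [hK3]
  exact S.E_PP_filter M0 (s3_pi_part _ _ _ _) hK1 (s3_pi_max hK1 hK2 (by omega)) z

/-- `‖g_K‖² = ⟨z, g_K⟩` -/
theorem gK_inner (M0 : List Bool → Finset V) (hK : K ∈ s3_act (S.trS z) [] N r) :
    ⟪z, S.gK z M0 N K⟫_𝕜 = ((‖S.gK z M0 N K‖ ^ 2 : ℝ) : 𝕜) := by
  rw [S.gK_eq z M0 hK]
  exact S.inner_PP_self M0 (s3_pi_restrict (Nat.le_succ r) (s3_act_subset _ _ _ _ hK)) z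

/-- on a deep cell `w` below `K`, `g_K` is a local projection on a cut cell `Q ⊇ w` -/
theorem gK_deep (M0 : List Bool → Finset V) (hK : K ∈ s3_act (S.trS z) [] N r) {w : List Bool} (hw : N ≤ w.length)
    (hKw : K <:+ w) : ∃ Q ∈ s3_pi (S.trS z) [] N (r + 1), K <:+ Q ∧ Q <:+ w ∧
      S.E w (S.gK z M0 N K) = S.E w (S.P (M0 Q) Q z) := by
  obtain ⟨hK1, hK2, hK3, -⟩ := s3_act_spec hK
  obtain ⟨Q, hQ, hQw⟩ := (s3_pi_part (S.trS z) [] N (r + 1)).cover (u := w) List.nil_suffix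
  have hQN : Q.length ≤ N := by simpa using s3_pi_length hQ
  have hQw' : Q <:+ w := by
    rcases hQw with h | h
    · exact h
    · rw [h.eq_of_length_le (by omega)]
  have hKQ : K <:+ Q := by
    rcases le_total K.length Q.length with hl | hl
    · exact List.suffix_of_suffix_length_le hKw hQw' hl
    · have := s3_pi_max hK1 hK2 (by omega) Q hQ (List.suffix_of_suffix_length_le hQw' hKw hl)
      rw [this]
  refine ⟨Q, hQ, hKQ, hQw', ?_⟩
  unfold gK
  rw [hK3, S.E_sub_comp hKw, ← S.E_sub_comp hQw', S.E_PP_atom M0 (s3_pi_part _ _ _ _) hQ]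

/-- `‖g_K‖_∞ ≤ G a_K` (integrated over cells) -/
theorem gK_bdd (hM0 : S.IsMask M0) (hK : K ∈ s3_act (S.trS z) [] N r) (w : List Bool) :
    ‖S.E w (S.gK z M0 N K)‖ ^ 2 ≤ (s3_G S.D * S.avg z K) ^ 2 * S.len w := by
  obtain ⟨hK1, hK2, hK3, -⟩ := s3_act_spec hK
  have hKN : K.length ≤ N := by simpa using hK2
  refine s3_induct_up N (fun w => ‖S.E w (S.gK z M0 N K)‖ ^ 2 ≤ (s3_G S.D * S.avg z K) ^ 2 * S.len w) ?_ ?_ w
  · intro w hw
    by_cases hKw : K <:+ w
    · obtain ⟨Q, hQ, hKQ, hQw, he⟩ := S.gK_deep z M0 hK hw hKw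
      rw [he]
      refine (S.normsq_E_P_le (hM0.avail Q) hQw z).trans ?_
      have h1 := S.avg_cut_le z hK hQ hKQ
      have h2 := S.avg_nonneg z Q
      have h3 := S.D_pos
      have h4 := (S.len_pos w).le
      have h5 : S.D ^ 5 * S.avg z Q ≤ s3_G S.D * S.avg z K := by
        unfold s3_G
        have : S.D ^ 5 * S.avg z Q ≤ S.D ^ 5 * (4 * S.avg z K) :=
          mul_le_mul_of_nonneg_left h1 (by positivity)
        linarith
      gcongr
    · have hwK : ¬ w <:+ K := fun h => hKw (by rw [h.eq_of_length_le (by omega)])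
      rw [← S.gK_supp, S.E_incomp hwK hKw]
      have := (S.len_pos w).le
      rw [norm_zero, zero_pow (by norm_num)]
      positivity
  · intro w h0 h1
    rw [S.normsq_split, S.len_split w]
    linarith

/-- `‖g_K‖_∞ ≤ G a_K` (tested against `1_w z`) -/
theorem gK_test (hM0 : S.IsMask M0) (hK : K ∈ s3_act (S.trS z) [] N r) (w : List Bool) :
    ‖⟪S.E w z, S.gK z M0 N K⟫_𝕜‖ ≤ s3_G S.D * S.avg z K * S.L1 z w := by
  obtain ⟨hK1, hK2, hK3, -⟩ := s3_act_spec hK
  have hKN : K.length ≤ N := by simpa using hK2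
  refine s3_induct_up N (fun w => ‖⟪S.E w z, S.gK z M0 N K⟫_𝕜‖ ≤ s3_G S.D * S.avg z K * S.L1 z w) ?_ ?_ w
  · intro w hw
    by_cases hKw : K <:+ w
    · obtain ⟨Q, hQ, hKQ, hQw, he⟩ := S.gK_deep z M0 hK hw hKw
      rw [← S.E_idem, S.E_symm, he, ← S.E_symm, S.E_idem]
      refine (S.inner_E_P_le (hM0.avail Q) hQw z z).trans ?_
      have h1 := S.avg_cut_le z hK hQ hKQ
      have h3 := S.D_pos
      have h4 := S.L1_nonneg z w
      have h5 : S.D ^ 5 * S.avg z Q ≤ s3_G S.D * S.avg z K := by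
        unfold s3_G
        have : S.D ^ 5 * S.avg z Q ≤ S.D ^ 5 * (4 * S.avg z K) :=
          mul_le_mul_of_nonneg_left h1 (by positivity)
        linarith
      gcongr
    · have hwK : ¬ w <:+ K := fun h => hKw (by rw [h.eq_of_length_le (by omega)])
      rw [S.E_symm, ← S.gK_supp, S.E_incomp hwK hKw, inner_zero_right, norm_zero]
      have h1 := S.L1_nonneg z w
      have h2 := S.avg_nonneg z K
      have h3 := S.D_pos
      unfold s3_G
      positivity
  · intro w h0 h1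
    rw [S.E_split w z, inner_add_left, S.L1_split z w]
    refine (norm_add_le _ _).trans ?_
    linarith

/-- the product depends on its input only through the first projection -/
theorem Z_congr_first (M : ℕ → List Bool → Finset V) (m : ℕ) (w : List Bool) {x y : X}
    (h : S.P (M 0 w) w x = S.P (M 0 w) w y) : S.Z M (m + 1) w x = S.Z M (m + 1) w y := by
  induction m with
  | zero => exact h
  | succ m ih => rw [S.Z_succ M (m + 1), S.Z_succ M (m + 1), ih]

/-- same first layer moments: `P_u^{m+1} ⋯ P_u^1 g_K = P_u^{m+1} ⋯ P_u^1 z` for `u ∈ 𝒯_K` -/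
theorem Z_gK {M : ℕ → List Bool → Finset V} (hM : S.IsMask (M 0)) (m : ℕ) (hu : u.length ≤ N) :
    S.Z M (m + 1) u (S.gK z (M 0) N (s3_top (S.trS z) [] u)) = S.Z M (m + 1) u z := by
  apply S.Z_congr_first
  have hnil : ([] : List Bool) <:+ u := List.nil_suffix
  unfold gK
  rw [← S.P_E, S.E_sub_comp (s3_top_suffix hnil), S.P_E, s3_gen_top hnil]
  exact hM.P_PP_sub (s3_pi_part _ _ _ _) hnil (s3_pi_max hnil (by simpa using hu) (by omega)) z

/-- **stopping averages**: `∑_{K ∈ 𝒮} a_K² |K| ≤ 4 ‖z‖²` -/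
theorem sum_avg_sq_le (𝒞 : Finset (List Bool)) (h𝒞 : ∀ K ∈ 𝒞, s3_top (S.trS z) [] K = K) :
    ∑ K ∈ 𝒞, S.avg z K ^ 2 * S.len K ≤ 4 * ‖z‖ ^ 2 := by
  set top := s3_top (S.trS z) [] with htop
  have hnil : ∀ w : List Bool, ([] : List Bool) <:+ w := fun w => List.nil_suffix
  -- `Ψ(w,a) = 4‖1_w z‖² - 4 a L1(w) + a²|w|`
  set Ψ : List Bool → ℝ → ℝ := fun w a => 4 * ‖S.E w z‖ ^ 2 - 4 * a * S.L1 z w + a ^ 2 * S.len w with hΨ
  have hΨ0 : ∀ w a, 0 ≤ Ψ w a := by
    intro w a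
    have h1 := S.L1_sq_le z w
    have h2 := S.len_pos w
    have h3 : 0 ≤ (2 * S.L1 z w - a * S.len w) ^ 2 := sq_nonneg _
    have h4 : 0 ≤ S.len w * Ψ w a := by
      simp only [hΨ]
      nlinarith
    exact nonneg_of_mul_nonneg_right h4 h2
  have hΨadd : ∀ w a, Ψ w a = Ψ (false :: w) a + Ψ (true :: w) a := by
    intro w a
    simp only [hΨ]
    rw [S.normsq_split w z, S.L1_split z w, S.len_split w]
    ring
  have hL1 : ∀ w, S.L1 z w = S.avg z w * S.len w := by
    intro w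
    unfold avg
    rw [div_mul_cancel₀ _ (S.len_pos w).ne']
  set f : List Bool → ℝ := fun w => if top w = w then S.avg z w ^ 2 * S.len w else 0 with hf
  set Φ : List Bool → ℝ := fun w => Ψ w (S.avg z (top w)) + f w with hΦ
  have hf0 : ∀ w, 0 ≤ f w := by
    intro w
    simp only [hf]
    split_ifs
    · have := (S.len_pos w).le; positivity
    · exact le_rfl
  have hchild : ∀ (b : Bool) (w : List Bool), Φ (b :: w) ≤ Ψ (b :: w) (S.avg z (top w)) := by
    intro b w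
    by_cases ht : S.trS z (top w) (b :: w)
    · have e1 : top (b :: w) = b :: w := s3_top_cons_pos (hnil w) ht
      have ht' : 2 * S.avg z (top w) < S.avg z (b :: w) := ht
      have h0 := S.avg_nonneg z (top w)
      have h2 := S.len_pos (b :: w)
      simp only [hΦ, hf, hΨ, e1, if_true, hL1 (b :: w)]
      have : 0 ≤ S.len (b :: w) * (S.avg z (b :: w) * (S.avg z (b :: w) - 2 * S.avg z (top w))) := by
        apply mul_nonneg h2.le
        apply mul_nonneg <;> linarith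
      nlinarith [mul_nonneg h2.le (sq_nonneg (S.avg z (top w)))]
    · have e1 : top (b :: w) = top w := s3_top_cons_neg (hnil w) ht
      have e2 : top (b :: w) ≠ b :: w := by
        rw [e1]
        intro h
        have := (s3_top_suffix (tr := S.trS z) (hnil w)).length_le
        rw [← htop, h] at this
        simp at this
      simp only [hΦ, hf, e1]
      rw [← e1, if_neg e2, e1, add_zero]
  have key := s3_potential f Φ hf0 (fun w => by simp only [hΦ]; linarith [hΨ0 w (S.avg z (top w))])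
    (fun w => by
      have h1 := hchild false w
      have h2 := hchild true w
      have h3 := hΨadd w (S.avg z (top w))
      simp only [hΦ] at h1 h2 ⊢
      linarith) [] 𝒞 (fun u _ => hnil u)
  have e0 : ∑ K ∈ 𝒞, S.avg z K ^ 2 * S.len K = ∑ K ∈ 𝒞, f K := by
    refine Finset.sum_congr rfl fun K hK => ?_
    simp only [hf]
    rw [if_pos (h𝒞 K hK)]
  rw [e0]
  refine key.trans ?_
  have e1 : top [] = [] := s3_top_root _ _
  have h2 := S.len_pos []
  have h3 := S.norm_E_le [] z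
  have h4 : ‖S.E [] z‖ ^ 2 ≤ ‖z‖ ^ 2 := pow_le_pow_left₀ (norm_nonneg _) h3 2
  simp only [hΦ, hf, hΨ, e1, if_true, hL1 []]
  nlinarith [mul_nonneg h2.le (sq_nonneg (S.avg z []))]

/-- the same, summed over ranks -/
theorem sum_act_avg_sq_le (N n j : ℕ) :
    ∑ r ∈ Finset.range n, ∑ K ∈ s3_act (S.trS z) [] N (r + j), S.avg z K ^ 2 * S.len K ≤ 4 * ‖z‖ ^ 2 := by
  classical
  rw [← Finset.sum_biUnion]
  · refine S.sum_avg_sq_le z _ fun K hK => ?_
    obtain ⟨r, -, hr⟩ := Finset.mem_biUnion.mp hK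
    exact (s3_act_spec hr).2.2.2
  · intro r _ r' _ hne
    exact s3_act_disjoint (by omega)

/-- one root: near part + far part -/
theorem gK_normsq_le (hM0 : S.IsMask M0) (hK : K ∈ s3_act (S.trS z) [] N r) (L : ℕ) :
    ‖S.gK z M0 N K‖ ^ 2 ≤
      (‖S.E K z‖ ^ 2 - ∑ K' ∈ (s3_act (S.trS z) [] N (r + L)).filter (fun K' => K <:+ K'), ‖S.E K' z‖ ^ 2)
      + 2 * ∑ K' ∈ (s3_act (S.trS z) [] N (r + L)).filter (fun K' => K <:+ K'),
          s3_G S.D * S.avg z K * S.L1 z K' := by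
  set F := (s3_act (S.trS z) [] N (r + L)).filter (fun K' => K <:+ K') with hF
  set g := S.gK z M0 N K with hg
  set y := S.E K z - ∑ K' ∈ F, S.E K' z with hy
  have hy2 : ‖y‖ ^ 2 = ‖S.E K z‖ ^ 2 - ∑ K' ∈ F, ‖S.E K' z‖ ^ 2 :=
    S.normsq_sub_sum K F (fun Q hQ => (Finset.mem_filter.mp hQ).2)
      (fun Q hQ Q' hQ' h => s3_act_antichain (Finset.mem_filter.mp hQ).1 (Finset.mem_filter.mp hQ').1 h) z
  have h1 : ⟪S.E K z, g⟫_𝕜 = ((‖g‖ ^ 2 : ℝ) : 𝕜) := by
    rw [S.E_symm, hg, S.gK_supp, S.gK_inner z M0 hK]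
  have h2 : S.E K z = y + ∑ K' ∈ F, S.E K' z := by rw [hy]; abel
  have h3 : ‖g‖ ^ 2 ≤ ‖y‖ * ‖g‖ + ∑ K' ∈ F, s3_G S.D * S.avg z K * S.L1 z K' := by
    have e1 : ‖g‖ ^ 2 = ‖⟪S.E K z, g⟫_𝕜‖ := by
      rw [h1, RCLike.norm_ofReal, abs_of_nonneg (sq_nonneg _)]
    rw [e1, h2, inner_add_left, sum_inner]
    refine (norm_add_le _ _).trans (add_le_add (norm_inner_le_norm _ _) ?_)
    refine (norm_sum_le _ _).trans (Finset.sum_le_sum fun K' _ => ?_)
    exact S.gK_test z hM0 hK K'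
  rw [← hy2]
  nlinarith [sq_nonneg (‖y‖ - ‖g‖)]

/-- near parts: telescoping in the rank -/
theorem sum_near_le (N n L : ℕ) :
    ∑ r ∈ Finset.range n, ∑ K ∈ s3_act (S.trS z) [] N r,
      (‖S.E K z‖ ^ 2 - ∑ K' ∈ (s3_act (S.trS z) [] N (r + L)).filter (fun K' => K <:+ K'), ‖S.E K' z‖ ^ 2)
      ≤ (L : ℝ) * ‖z‖ ^ 2 := by
  set sq : ℕ → ℝ := fun r => ∑ K ∈ s3_act (S.trS z) [] N r, ‖S.E K z‖ ^ 2 with hsq
  have hs0 : ∀ r, 0 ≤ sq r := fun r => Finset.sum_nonneg fun _ _ => sq_nonneg _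
  have hs1 : ∀ r, sq r ≤ ‖z‖ ^ 2 := by
    intro r
    refine (s3_act_sum_le (fun Q => ‖S.E Q z‖ ^ 2) (fun _ => sq_nonneg _) (fun w => S.normsq_split w z)).trans ?_
    exact pow_le_pow_left₀ (norm_nonneg _) (S.norm_E_le [] z) 2
  have e1 : ∀ r, ∑ K ∈ s3_act (S.trS z) [] N r,
      (‖S.E K z‖ ^ 2 - ∑ K' ∈ (s3_act (S.trS z) [] N (r + L)).filter (fun K' => K <:+ K'), ‖S.E K' z‖ ^ 2)
      = sq r - sq (r + L) := by
    intro r
    rw [Finset.sum_sub_distrib, s3_act_fiber (fun K' => ‖S.E K' z‖ ^ 2) (Nat.le_add_right r L)]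
  simp only [e1]
  clear e1
  induction L with
  | zero => simp
  | succ L ih =>
    have e2 : ∑ r ∈ Finset.range n, (sq r - sq (r + (L + 1)))
        = ∑ r ∈ Finset.range n, (sq r - sq (r + L)) + ∑ r ∈ Finset.range n, (sq (r + L) - sq (r + 1 + L)) := by
      rw [← Finset.sum_add_distrib]
      refine Finset.sum_congr rfl fun r _ => ?_
      rw [show r + (L + 1) = r + 1 + L by omega]
      ring
    have e3 : ∑ r ∈ Finset.range n, (sq (r + L) - sq (r + 1 + L)) = sq (0 + L) - sq (n + L) :=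
      Finset.sum_range_sub' (fun r => sq (r + L)) n
    rw [e2, e3]
    push_cast
    have := hs0 (n + L)
    have := hs1 (0 + L)
    linarith

/-- far parts -/
theorem sum_far_le (N n L : ℕ) (hL : s3_G S.D ≤ 2 ^ L) :
    ∑ r ∈ Finset.range n, ∑ K ∈ s3_act (S.trS z) [] N r,
      ∑ K' ∈ (s3_act (S.trS z) [] N (r + L)).filter (fun K' => K <:+ K'), s3_G S.D * S.avg z K * S.L1 z K'
      ≤ 4 * ‖z‖ ^ 2 := by
  refine le_trans ?_ (S.sum_act_avg_sq_le z N n L)
  refine Finset.sum_le_sum fun r _ => ?_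
  rw [← s3_act_fiber (fun K' => S.avg z K' ^ 2 * S.len K') (Nat.le_add_right r L)]
  refine Finset.sum_le_sum fun K hK => Finset.sum_le_sum fun K' hK' => ?_
  obtain ⟨hK'1, hK'2⟩ := Finset.mem_filter.mp hK'
  have h1 := S.avg_chain z hK hK'1 hK'2
  have h2 := S.avg_nonneg z K
  have h3 : s3_G S.D * S.avg z K ≤ S.avg z K' := (mul_le_mul_of_nonneg_right hL h2).trans h1
  have h4 : S.L1 z K' = S.avg z K' * S.len K' := by
    unfold avg
    rw [div_mul_cancel₀ _ (S.len_pos K').ne']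
  have h5 : 0 ≤ S.avg z K' * S.len K' := mul_nonneg (S.avg_nonneg z K') (S.len_pos K').le
  rw [h4]
  calc s3_G S.D * S.avg z K * (S.avg z K' * S.len K') ≤ S.avg z K' * (S.avg z K' * S.len K') :=
        mul_le_mul_of_nonneg_right h3 h5
    _ = _ := by ring

/-- **energy of the moment representatives**, summed over ranks -/
theorem sum_act_gK_le (hM0 : S.IsMask M0) (N n L : ℕ) (hL : s3_G S.D ≤ 2 ^ L) :
    ∑ r ∈ Finset.range n, ∑ K ∈ s3_act (S.trS z) [] N r, ‖S.gK z M0 N K‖ ^ 2 ≤ ((L : ℝ) + 8) * ‖z‖ ^ 2 := by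
  have h1 : ∀ r ∈ Finset.range n, ∀ K ∈ s3_act (S.trS z) [] N r, _ := fun r _ K hK => S.gK_normsq_le z hM0 hK L
  have h2 := S.sum_near_le z N n L
  have h3 := S.sum_far_le z N n L hL
  calc ∑ r ∈ Finset.range n, ∑ K ∈ s3_act (S.trS z) [] N r, ‖S.gK z M0 N K‖ ^ 2
      ≤ _ := Finset.sum_le_sum fun r hr => Finset.sum_le_sum fun K hK => h1 r hr K hK
    _ = ∑ r ∈ Finset.range n, ∑ K ∈ s3_act (S.trS z) [] N r,
          (‖S.E K z‖ ^ 2 - ∑ K' ∈ (s3_act (S.trS z) [] N (r + L)).filter (fun K' => K <:+ K'), ‖S.E K' z‖ ^ 2)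
        + 2 * ∑ r ∈ Finset.range n, ∑ K ∈ s3_act (S.trS z) [] N r,
          ∑ K' ∈ (s3_act (S.trS z) [] N (r + L)).filter (fun K' => K <:+ K'), s3_G S.D * S.avg z K * S.L1 z K' := by
      rw [Finset.mul_sum, ← Finset.sum_add_distrib]
      refine Finset.sum_congr rfl fun r _ => ?_
      rw [Finset.mul_sum, ← Finset.sum_add_distrib]
    _ ≤ _ := by linarith

/-- **energy of the moment representatives**: `∑_{K ∈ 𝒮} ‖g_K‖² ≤ (L + 8) ‖z‖²` -/
theorem sum_gK_le (hM0 : S.IsMask M0) (N L : ℕ) (hL : s3_G S.D ≤ 2 ^ L) (𝒞 : Finset (List Bool))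
    (h𝒞 : ∀ K ∈ 𝒞, s3_top (S.trS z) [] K = K ∧ K.length ≤ N) :
    ∑ K ∈ 𝒞, ‖S.gK z M0 N K‖ ^ 2 ≤ ((L : ℝ) + 8) * ‖z‖ ^ 2 := by
  classical
  refine le_trans ?_ (S.sum_act_gK_le z hM0 N (N + 1) L hL)
  rw [← Finset.sum_biUnion]
  · refine Finset.sum_le_sum_of_subset_of_nonneg ?_ fun _ _ _ => sq_nonneg _
    intro K hK
    obtain ⟨h1, h2⟩ := h𝒞 K hK
    have h3 := s3_top_mem_act (tr := S.trS z) (R := []) (k := N) (u := K) List.nil_suffix (by simpa using h2)
    rw [h1] at h3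
    have h4 := s3_gen_le_length (tr := S.trS z) (R := []) (u := K) List.nil_suffix
    refine Finset.mem_biUnion.mpr ⟨_, Finset.mem_range.mpr ?_, h3⟩
    simp at h4
    omega
  · intro r _ r' _ hne
    exact s3_act_disjoint hne

end s3_Sys

end Claimed.Agent.R258
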