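/-
Row 258 (S0498), block [S3] = Sec. 3 compression.tex (architect helper93).
**`lem:compression` in the abstract column system.**

* `compression_layers`: the paper's argument for `m + 1` layers, for any number of transitions `T` with `s3_TOk D m T`.
* We only USE it for ONE layer (`compression_one`, `T = ⌈32 D³²⌉`, constant `s3_K1 D`): if `B_ν` are Bessel rows local to `u(ν)`, so are
  `B_ν ∘ P_{u(ν)}` (up to the constant `s3_K1 D`); hence products of `m` factors `P` or `1_w - P` cost `(4 s3_K1 D)^m`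
  (`compression_signed`, induction on the list of factors, outermost factor first).
* numerical bound `s3_K1_le : s3_K1 D ≤ (C log(2D))^C`.
-/
import Claimed.Agent.R258.S3.Size

set_option autoImplicit false
set_option linter.unusedSectionVars false

namespace Claimed.Agent.R258

open scoped InnerProductSpace

/-- number of near ranks: `G ≤ 2^{L_D}` -/
noncomputable def s3_LD (D : ℝ) : ℕ := ⌈Real.logb 2 (s3_G D)⌉₊

theorem s3_G_le (D : ℝ) (hD : 2 ≤ D) : s3_G D ≤ 2 ^ s3_LD D := by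
  have hG : 0 < s3_G D := by unfold s3_G; positivity
  calc s3_G D = (2 : ℝ) ^ Real.logb 2 (s3_G D) := (Real.rpow_logb (by norm_num) (by norm_num) hG).symm
    _ ≤ (2 : ℝ) ^ ((s3_LD D : ℕ) : ℝ) :=
        Real.rpow_le_rpow_of_exponent_le (by norm_num) (Nat.le_ceil _)
    _ = 2 ^ s3_LD D := Real.rpow_natCast _ _

/-- `τ² D³ ≤ 1` -/
theorem s3_tau_sq_le (D : ℝ) (hD : 2 ≤ D) : s3_tau D ^ 2 * D ^ 3 ≤ 1 := by
  unfold s3_tau
  have hD0 : 0 < D := by linarith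
  have h1 : (1 : ℝ) ≤ D := by linarith
  have h2 : D ^ 3 ≤ D ^ 20 := pow_le_pow_right₀ h1 (by norm_num)
  have h3 : ((D ^ 10)⁻¹) ^ 2 * D ^ 3 = D ^ 3 / D ^ 20 := by
    field_simp
  rw [h3, div_le_one (by positivity)]
  exact h2

/-- number of transitions for one layer -/
noncomputable def s3_T1 (D : ℝ) : ℕ := ⌈32 * D ^ 32⌉₊

theorem s3_T1_ok (D : ℝ) (hD : 2 ≤ D) : s3_TOk D 0 (s3_T1 D) := by
  have hD0 : 0 < D := by linarith
  refine ⟨Nat.one_le_iff_ne_zero.mpr (Nat.ceil_pos.mpr (by positivity)).ne', ?_⟩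
  have := Nat.le_ceil (32 * D ^ 32)
  simpa [s3_T1] using this

/-- the square of the compression constant of one layer -/
noncomputable def s3_K1 (D : ℝ) : ℝ := 4 * ((s3_LT (s3_T1 D) : ℝ) ^ (0 + 1)) ^ 2 * ((s3_LD D : ℝ) + 8) + 16

theorem s3_one_le_K1 (D : ℝ) : 1 ≤ s3_K1 D := by
  unfold s3_K1
  have : 0 ≤ 4 * ((s3_LT (s3_T1 D) : ℝ) ^ (0 + 1)) ^ 2 * ((s3_LD D : ℝ) + 8) := by positivity
  linarith

theorem s3_log_two_D (D : ℝ) (hD : 2 ≤ D) : 1 ≤ Real.log (2 * D) := by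
  rw [Real.le_log_iff_exp_le (by linarith)]
  have := Real.exp_one_lt_d9
  linarith

theorem s3_LT_T1_le (D : ℝ) (hD : 2 ≤ D) : (s3_LT (s3_T1 D) : ℝ) ≤ 66 * Real.log (2 * D) := by
  have hD0 : 0 < D := by linarith
  set ℓ := Real.log (2 * D) with hℓ
  have hℓ1 : 1 ≤ ℓ := s3_log_two_D D hD
  have hlog2 : (1 / 2 : ℝ) ≤ Real.log 2 := by have := Real.log_two_gt_d9; linarith
  set k : ℕ := ⌈64 * ℓ⌉₊ with hk
  have hk1 : 64 * ℓ ≤ (k : ℝ) := Nat.le_ceil _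
  have hk2 : (k : ℝ) < 64 * ℓ + 1 := Nat.ceil_lt_add_one (by linarith)
  have h1 : ((s3_T1 D + 1 : ℕ) : ℝ) ≤ (2 * D) ^ 32 := by
    have h2 : ((s3_T1 D : ℕ) : ℝ) < 32 * D ^ 32 + 1 := Nat.ceil_lt_add_one (by positivity)
    have h3 : (1 : ℝ) ≤ D ^ 32 := one_le_pow₀ (by linarith)
    have h4 : (2 * D) ^ 32 = 2 ^ 32 * D ^ 32 := by ring
    push_cast
    rw [h4]
    norm_num
    nlinarith
  have h2 : (2 * D) ^ 32 ≤ (2 : ℝ) ^ k := by
    have e1 : (2 * D) ^ 32 = Real.exp (32 * ℓ) := by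
      have : Real.exp (32 * ℓ) = Real.exp ℓ ^ 32 := by
        rw [← Real.exp_nat_mul]; norm_num
      rw [this, hℓ, Real.exp_log (by linarith)]
    have e2 : (2 : ℝ) ^ k = Real.exp (k * Real.log 2) := by
      rw [mul_comm, Real.exp_mul, Real.exp_log (by norm_num), Real.rpow_natCast]
    rw [e1, e2]
    apply Real.exp_le_exp.mpr
    nlinarith
  have h3 : s3_T1 D + 1 ≤ 2 ^ k := by
    have : ((s3_T1 D + 1 : ℕ) : ℝ) ≤ ((2 ^ k : ℕ) : ℝ) := by push_cast; push_cast at h1; linarith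
    exact_mod_cast this
  have h4 : Nat.clog 2 (s3_T1 D + 1) ≤ k := Nat.clog_le_of_le_pow h3
  have h5 : (Nat.clog 2 (s3_T1 D + 1) : ℝ) ≤ (k : ℝ) := by exact_mod_cast h4
  unfold s3_LT
  push_cast
  linarith

theorem s3_LD_le (D : ℝ) (hD : 2 ≤ D) : (s3_LD D : ℝ) + 8 ≤ 20 * Real.log (2 * D) := by
  have hD0 : 0 < D := by linarith
  set ℓ := Real.log (2 * D) with hℓ
  have hℓ1 : 1 ≤ ℓ := s3_log_two_D D hD
  have hlog2 : (1 / 2 : ℝ) ≤ Real.log 2 := by have := Real.log_two_gt_d9; linarith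
  have hG1 : 1 ≤ s3_G D := by
    unfold s3_G
    have : (1 : ℝ) ≤ D ^ 5 := one_le_pow₀ (by linarith)
    linarith
  have hG : Real.log (s3_G D) ≤ 5 * ℓ := by
    have : s3_G D ≤ (2 * D) ^ 5 := by
      unfold s3_G
      have : (0 : ℝ) ≤ D ^ 5 := by positivity
      nlinarith
    calc Real.log (s3_G D) ≤ Real.log ((2 * D) ^ 5) := Real.log_le_log (by linarith) this
      _ = 5 * ℓ := by rw [Real.log_pow]; norm_num [hℓ]
  have hG0 : 0 ≤ Real.log (s3_G D) := Real.log_nonneg hG1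
  have h1 : Real.logb 2 (s3_G D) ≤ 10 * ℓ := by
    unfold Real.logb
    rw [div_le_iff₀ (by linarith)]
    nlinarith
  have h0 : 0 ≤ Real.logb 2 (s3_G D) := Real.logb_nonneg (by norm_num) hG1
  have h2 : (s3_LD D : ℝ) < Real.logb 2 (s3_G D) + 1 := Nat.ceil_lt_add_one h0
  linarith

theorem s3_K1_le' (D : ℝ) (hD : 2 ≤ D) : 4 * s3_K1 D ≤ ((200 : ℕ) * Real.log (2 * D)) ^ 200 := by
  set ℓ := Real.log (2 * D) with hℓ
  have hℓ1 : 1 ≤ ℓ := s3_log_two_D D hD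
  have hA := s3_LT_T1_le D hD
  have hB := s3_LD_le D hD
  have hA0 : (0 : ℝ) ≤ (s3_LT (s3_T1 D) : ℝ) := Nat.cast_nonneg _
  have hB0 : (0 : ℝ) ≤ (s3_LD D : ℝ) + 8 := by positivity
  have h1 : ((s3_LT (s3_T1 D) : ℝ) ^ (0 + 1)) ^ 2 ≤ (66 * ℓ) ^ 2 := by
    rw [zero_add, pow_one]
    exact pow_le_pow_left₀ hA0 hA 2
  have h2 : ((s3_LT (s3_T1 D) : ℝ) ^ (0 + 1)) ^ 2 * ((s3_LD D : ℝ) + 8) ≤ (66 * ℓ) ^ 2 * (20 * ℓ) :=
    mul_le_mul h1 hB hB0 (by positivity)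
  have h3 : (1 : ℝ) ≤ ℓ ^ 3 := one_le_pow₀ hℓ1
  have h4 : 4 * s3_K1 D ≤ (200 * ℓ) ^ 3 := by
    unfold s3_K1
    nlinarith
  refine h4.trans ?_
  push_cast
  exact pow_le_pow_right₀ (by linarith) (by norm_num)

/-- **the constant of one layer is polylogarithmic in `D`** -/
theorem s3_K1_le : ∃ C : ℕ, ∀ D : ℝ, 2 ≤ D → 4 * s3_K1 D ≤ ((C : ℝ) * Real.log (2 * D)) ^ C :=
  ⟨200, fun D hD => s3_K1_le' D hD⟩

variable {𝕜 X V : Type*} [RCLike 𝕜] [NormedAddCommGroup X] [InnerProductSpace 𝕜 X]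

namespace s3_Sys

variable (S : s3_Sys 𝕜 X V)

/-- **Lemma 3.4 (Compression), abstract form, `m + 1` layers.** -/
theorem compression_layers {m T : ℕ} (hT : s3_TOk S.D m T) (M : ℕ → List Bool → Finset V) (hM : ∀ i ≤ m, S.IsMask (M i))
    {ι : Type*} (s : Finset ι) (B : ι → Seminorm 𝕜 X) (u : ι → List Bool)
    (hB : ∀ h, ∑ ν ∈ s, (B ν h) ^ 2 ≤ ‖h‖ ^ 2) (hloc : ∀ ν ∈ s, ∀ z, B ν (S.E (u ν) z) = B ν z) (z : X) :
    ∑ ν ∈ s, (B ν (S.Z M (m + 1) (u ν) z)) ^ 2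
      ≤ (4 * ((s3_LT T : ℝ) ^ (m + 1)) ^ 2 * ((s3_LD S.D : ℝ) + 8) + 16) * ‖z‖ ^ 2 := by
  classical
  have hM' : ∀ i ≤ m, S.IsMask (M i) := hM
  have hM0 : S.IsMask (M 0) := hM' 0 (Nat.zero_le m)
  set N : ℕ := s.sup fun ν => (u ν).length with hN
  have huN : ∀ ν ∈ s, (u ν).length ≤ N := fun ν hν => Finset.le_sup (f := fun ν => (u ν).length) hν
  set tr := S.trS z with htr
  set top : ι → List Bool := fun ν => s3_top tr [] (u ν) with htop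
  set 𝒞 : Finset (List Bool) := s.image top with h𝒞
  set L2 : ℝ := ((s3_LT T : ℝ) ^ (m + 1)) ^ 2 with hL2
  have hL20 : 0 ≤ L2 := sq_nonneg _
  have hnil : ∀ w : List Bool, [] <:+ w := fun w => List.nil_suffix
  have h𝒞1 : ∀ K ∈ 𝒞, s3_top tr [] K = K ∧ K.length ≤ N := by
    intro K hK
    obtain ⟨ν, hν, rfl⟩ := Finset.mem_image.mp hK
    exact ⟨s3_top_top (hnil _), ((s3_top_suffix (hnil _)).length_le).trans (huN ν hν)⟩
  -- one size segment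
  have hseg : ∀ K ∈ 𝒞, ∑ ν ∈ s.filter (fun ν => top ν = K), (B ν (S.Z M (m + 1) (u ν) z)) ^ 2
      ≤ 4 * (L2 * ‖S.gK z (M 0) N K‖ ^ 2) + 4 * (S.avg z K ^ 2 * S.len K) := by
    intro K hK
    obtain ⟨hK1, hK2⟩ := h𝒞1 K hK
    have hKact : K ∈ s3_act tr [] N (s3_gen tr [] K) := by
      have := s3_top_mem_act (tr := tr) (k := N) (hnil K) (by simpa using hK2)
      rwa [hK1] at this
    have h1 : ∑ ν ∈ s.filter (fun ν => top ν = K), (B ν (S.Z M (m + 1) (u ν) z)) ^ 2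
        = ∑ ν ∈ s.filter (fun ν => top ν = K), (B ν (S.Z M (m + 1) (u ν) (S.gK z (M 0) N K))) ^ 2 := by
      refine Finset.sum_congr rfl fun ν hν => ?_
      obtain ⟨hν1, hν2⟩ := Finset.mem_filter.mp hν
      rw [← hν2, S.Z_gK z hM0 m (huN ν hν1)]
    rw [h1]
    have h2 := S.bounded_compression (S.gK z (M 0) N K) hT hM' (S.avg z K) (S.avg_nonneg z K)
      (S.gK_bdd z hM0 hKact) N B u K hK2 (s.filter fun ν => top ν = K)
      (fun h => (Finset.sum_le_sum_of_subset_of_nonneg (Finset.filter_subset _ _)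
        (fun _ _ _ => sq_nonneg _)).trans (hB h))
      (fun ν hν => hloc ν (Finset.mem_filter.mp hν).1)
      (fun ν hν => by
        obtain ⟨hν1, hν2⟩ := Finset.mem_filter.mp hν
        exact ⟨hν2 ▸ s3_top_suffix (hnil _), huN ν hν1⟩)
    rw [S.gK_supp] at h2
    refine h2.trans ?_
    have h3 := s3_tau_sq_le S.D S.two_le_D
    have h4 : 0 ≤ S.avg z K ^ 2 * S.len K := mul_nonneg (sq_nonneg _) (S.len_pos K).le
    have h5 : (s3_tau S.D * S.avg z K) ^ 2 * (S.D ^ 3 * S.len K)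
        = (s3_tau S.D ^ 2 * S.D ^ 3) * (S.avg z K ^ 2 * S.len K) := by ring
    rw [h5]
    nlinarith [mul_le_mul_of_nonneg_right h3 h4]
  have hsum : ∑ ν ∈ s, (B ν (S.Z M (m + 1) (u ν) z)) ^ 2
      = ∑ K ∈ 𝒞, ∑ ν ∈ s.filter (fun ν => top ν = K), (B ν (S.Z M (m + 1) (u ν) z)) ^ 2 :=
    (Finset.sum_fiberwise_of_maps_to (fun ν hν => Finset.mem_image_of_mem top hν) _).symm
  have hc := S.sum_avg_sq_le z 𝒞 (fun K hK => (h𝒞1 K hK).1)
  have hd := S.sum_gK_le z hM0 N (s3_LD S.D) (s3_G_le S.D S.two_le_D) 𝒞 h𝒞1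
  rw [hsum]
  calc ∑ K ∈ 𝒞, ∑ ν ∈ s.filter (fun ν => top ν = K), (B ν (S.Z M (m + 1) (u ν) z)) ^ 2
      ≤ ∑ K ∈ 𝒞, (4 * (L2 * ‖S.gK z (M 0) N K‖ ^ 2) + 4 * (S.avg z K ^ 2 * S.len K)) := Finset.sum_le_sum hseg
    _ = 4 * (L2 * ∑ K ∈ 𝒞, ‖S.gK z (M 0) N K‖ ^ 2) + 4 * ∑ K ∈ 𝒞, S.avg z K ^ 2 * S.len K := by
        simp only [Finset.sum_add_distrib, Finset.mul_sum]
    _ ≤ 4 * (L2 * (((s3_LD S.D : ℝ) + 8) * ‖z‖ ^ 2)) + 4 * (4 * ‖z‖ ^ 2) := by gcongr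
    _ = _ := by ring

/-- one layer -/
theorem compression_one (M0 : List Bool → Finset V) (hM0 : S.IsMask M0)
    {ι : Type*} (s : Finset ι) (B : ι → Seminorm 𝕜 X) (u : ι → List Bool)
    (hB : ∀ h, ∑ ν ∈ s, (B ν h) ^ 2 ≤ ‖h‖ ^ 2) (hloc : ∀ ν ∈ s, ∀ z, B ν (S.E (u ν) z) = B ν z) (z : X) :
    ∑ ν ∈ s, (B ν (S.P (M0 (u ν)) (u ν) z)) ^ 2 ≤ s3_K1 S.D * ‖z‖ ^ 2 :=
  S.compression_layers (s3_T1_ok S.D S.two_le_D) (fun _ => M0) (fun _ _ => hM0) s B u hB hloc z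

/-- one layer, rows with Bessel constant `A` -/
theorem compression_one' (M0 : List Bool → Finset V) (hM0 : S.IsMask M0)
    {ι : Type*} (s : Finset ι) (B : ι → Seminorm 𝕜 X) (u : ι → List Bool) (A : ℝ) (hA : 0 ≤ A)
    (hB : ∀ h, ∑ ν ∈ s, (B ν h) ^ 2 ≤ A * ‖h‖ ^ 2) (hloc : ∀ ν ∈ s, ∀ z, B ν (S.E (u ν) z) = B ν z) (z : X) :
    ∑ ν ∈ s, (B ν (S.P (M0 (u ν)) (u ν) z)) ^ 2 ≤ A * s3_K1 S.D * ‖z‖ ^ 2 := by
  rcases hA.eq_or_lt with hA0 | hA0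
  · have h0 : ∀ ν ∈ s, (B ν (S.P (M0 (u ν)) (u ν) z)) ^ 2 = 0 := by
      intro ν hν
      have h1 := hB (S.P (M0 (u ν)) (u ν) z)
      rw [← hA0, zero_mul] at h1
      exact le_antisymm ((Finset.single_le_sum (f := fun ν' => (B ν' (S.P (M0 (u ν)) (u ν) z)) ^ 2)
        (fun _ _ => sq_nonneg _) hν).trans h1) (sq_nonneg _)
    rw [Finset.sum_eq_zero h0, ← hA0]; simp
  · set r : ℝ := (Real.sqrt A)⁻¹ with hr
    have hr0 : 0 < r := by positivity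
    have hr2 : r ^ 2 * A = 1 := by
      rw [hr, inv_pow, Real.sq_sqrt hA]; field_simp
    let B' : ι → Seminorm 𝕜 X := fun ν => (Real.toNNReal r) • B ν
    have hB'v : ∀ ν h, B' ν h = r * B ν h := by
      intro ν h
      simp only [B', smul_apply, NNReal.smul_def, smul_eq_mul]
      rw [Real.coe_toNNReal _ hr0.le]
    have h1 := S.compression_one M0 hM0 s B' u (by
      intro h
      calc ∑ ν ∈ s, (B' ν h) ^ 2 = r ^ 2 * ∑ ν ∈ s, (B ν h) ^ 2 := by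
            rw [Finset.mul_sum]; exact Finset.sum_congr rfl fun ν _ => by rw [hB'v, mul_pow]
        _ ≤ r ^ 2 * (A * ‖h‖ ^ 2) := by gcongr; exact hB h
        _ = ‖h‖ ^ 2 := by rw [← mul_assoc, hr2, one_mul]) (by
      intro ν hν z; rw [hB'v, hB'v, hloc ν hν]) z
    have h2 : ∑ ν ∈ s, (B' ν (S.P (M0 (u ν)) (u ν) z)) ^ 2
        = r ^ 2 * ∑ ν ∈ s, (B ν (S.P (M0 (u ν)) (u ν) z)) ^ 2 := by
      rw [Finset.mul_sum]; exact Finset.sum_congr rfl fun ν _ => by rw [hB'v, mul_pow]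
    rw [h2] at h1
    calc ∑ ν ∈ s, (B ν (S.P (M0 (u ν)) (u ν) z)) ^ 2
        = A * (r ^ 2 * ∑ ν ∈ s, (B ν (S.P (M0 (u ν)) (u ν) z)) ^ 2) := by
          rw [← mul_assoc, mul_comm A, hr2, one_mul]
      _ ≤ A * (s3_K1 S.D * ‖z‖ ^ 2) := by gcongr
      _ = _ := by ring

/-- a factor at the cell `w`: the local projection or (flag `true`) its complement in `L²(w)` -/
noncomputable def fac (f : (List Bool → Finset V) × Bool) (w : List Bool) : X →ₗ[𝕜] X :=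
  if f.2 then S.E w - (S.P (f.1 w) w : X →ₗ[𝕜] X) else (S.P (f.1 w) w : X →ₗ[𝕜] X)

/-- the product of a list of factors at the cell `w`; head = outermost; the empty product is `E w` -/
noncomputable def ZS : List ((List Bool → Finset V) × Bool) → List Bool → X →ₗ[𝕜] X
  | [], w => S.E w
  | f :: W, w => (S.fac f w).comp (ZS W w)

theorem fac_E (f : (List Bool → Finset V) × Bool) (w : List Bool) (x : X) : S.fac f w (S.E w x) = S.fac f w x := by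
  unfold fac
  split_ifs
  · simp [S.E_idem, S.P_E]
  · simp [S.P_E]

/-- one factor turns Bessel rows into Bessel rows -/
theorem rows_fac (f : (List Bool → Finset V) × Bool) (hf : S.IsMask f.1)
    {ι : Type*} (s : Finset ι) (B : ι → Seminorm 𝕜 X) (u : ι → List Bool) (A : ℝ) (hA : 0 ≤ A)
    (hB : ∀ h, ∑ ν ∈ s, (B ν h) ^ 2 ≤ A * ‖h‖ ^ 2) (hloc : ∀ ν ∈ s, ∀ z, B ν (S.E (u ν) z) = B ν z) (z : X) :
    ∑ ν ∈ s, (B ν (S.fac f (u ν) z)) ^ 2 ≤ A * (4 * s3_K1 S.D) * ‖z‖ ^ 2 := by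
  have h1 := S.compression_one' f.1 hf s B u A hA hB hloc z
  have hK := s3_one_le_K1 S.D
  have hz : 0 ≤ A * ‖z‖ ^ 2 := by positivity
  unfold fac
  split_ifs with hflag
  · have h2 : ∀ ν ∈ s, (B ν ((S.E (u ν) - (S.P (f.1 (u ν)) (u ν) : X →ₗ[𝕜] X)) z)) ^ 2
        ≤ 2 * (B ν z) ^ 2 + 2 * (B ν (S.P (f.1 (u ν)) (u ν) z)) ^ 2 := by
      intro ν hν
      have h3 : B ν ((S.E (u ν) - (S.P (f.1 (u ν)) (u ν) : X →ₗ[𝕜] X)) z)
          ≤ B ν z + B ν (S.P (f.1 (u ν)) (u ν) z) := by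
        have := map_sub_le_add (B ν) (S.E (u ν) z) (S.P (f.1 (u ν)) (u ν) z)
        rw [hloc ν hν] at this
        simpa using this
      have h4 : 0 ≤ B ν ((S.E (u ν) - (S.P (f.1 (u ν)) (u ν) : X →ₗ[𝕜] X)) z) := apply_nonneg _ _
      nlinarith [sq_nonneg (B ν z - B ν (S.P (f.1 (u ν)) (u ν) z)), apply_nonneg (B ν) z,
        apply_nonneg (B ν) (S.P (f.1 (u ν)) (u ν) z)]
    calc _ ≤ ∑ ν ∈ s, (2 * (B ν z) ^ 2 + 2 * (B ν (S.P (f.1 (u ν)) (u ν) z)) ^ 2) := Finset.sum_le_sum h2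
      _ = 2 * ∑ ν ∈ s, (B ν z) ^ 2 + 2 * ∑ ν ∈ s, (B ν (S.P (f.1 (u ν)) (u ν) z)) ^ 2 := by
          rw [Finset.sum_add_distrib, Finset.mul_sum, Finset.mul_sum]
      _ ≤ 2 * (A * ‖z‖ ^ 2) + 2 * (A * s3_K1 S.D * ‖z‖ ^ 2) := by gcongr; exact hB z
      _ ≤ _ := by nlinarith
  · refine h1.trans ?_
    nlinarith

/-- **Lemma 3.4 (Compression), abstract form: products of `m` factors `P` or `1_w - P`.** -/
theorem compression_signed (W : List ((List Bool → Finset V) × Bool)) (hW : ∀ f ∈ W, S.IsMask f.1)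
    {ι : Type*} (s : Finset ι) (B : ι → Seminorm 𝕜 X) (u : ι → List Bool) (A : ℝ) (hA : 0 ≤ A)
    (hB : ∀ h, ∑ ν ∈ s, (B ν h) ^ 2 ≤ A * ‖h‖ ^ 2) (hloc : ∀ ν ∈ s, ∀ z, B ν (S.E (u ν) z) = B ν z) (z : X) :
    ∑ ν ∈ s, (B ν (S.ZS W (u ν) z)) ^ 2 ≤ A * (4 * s3_K1 S.D) ^ W.length * ‖z‖ ^ 2 := by
  induction W generalizing B A with
  | nil =>
    have : ∑ ν ∈ s, (B ν (S.ZS [] (u ν) z)) ^ 2 = ∑ ν ∈ s, (B ν z) ^ 2 :=
      Finset.sum_congr rfl fun ν hν => by simp only [ZS]; rw [hloc ν hν]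
    rw [this]; simpa using hB z
  | cons f W ih =>
    have hK := s3_one_le_K1 S.D
    let B' : ι → Seminorm 𝕜 X := fun ν => (B ν).comp (S.fac f (u ν))
    have h1 := ih (fun f' hf' => hW f' (List.mem_cons_of_mem _ hf')) B' (A * (4 * s3_K1 S.D)) (by positivity)
      (fun h => S.rows_fac f (hW f List.mem_cons_self) s B u A hA hB hloc h)
      (fun ν _ z => by simp only [B', Seminorm.comp_apply, S.fac_E])
    calc ∑ ν ∈ s, (B ν (S.ZS (f :: W) (u ν) z)) ^ 2 = ∑ ν ∈ s, (B' ν (S.ZS W (u ν) z)) ^ 2 := rfl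
      _ ≤ _ := h1
      _ = _ := by rw [List.length_cons]; ring

end s3_Sys

end Claimed.Agent.R258
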