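/-
Row 258 (S0498), block [S3] = Sec. 3 compression.tex (architect helper93).
**Lemma 3.4 (Compression) in the form consumed by Secs. 5-8** (`ComprFor` of S7/Var.lean, captain's msg 10003 (5)):

  `s3_comprFor : ∃ C, ∀ R 𝒱 D, ColBudget R 𝒱 D → ∀ W, (∀ f ∈ W, s3_MaskIn R 𝒱 f.1) → ComprFor R W (s3_Kap C W.length D)`,
  `s3_Kap C m D = (C (m+1)^C log(2D))^(C(m+1))`;   `W` = list of factors (mask family, flag `true` = complement `restr I - cproj`);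
  `s3_comprFor_avg` : finite signed/complex averages of such products cost the total variation of the weights;
  `s3_comprFor_bessel` : rows with Bessel constant `A`.
-/
import Claimed.Agent.R258.Pack017
import Claimed.Agent.R258.Pack022
import Claimed.Agent.R258.Pack006
import Claimed.Agent.R258.Pack011

set_option autoImplicit false
set_option linter.unusedSectionVars false
open MeasureTheory
open scoped InnerProductSpace

namespace Claimed.Agent.R258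

/-- `(C (m+1)^C log(2D))^(C(m+1))` -/
noncomputable def s3_Kap (C m : ℕ) (D : ℝ) : ℝ := ((C : ℝ) * ((m : ℝ) + 1) ^ C * Real.log (2 * D)) ^ (C * (m + 1))

theorem s3_Kap_nonneg (C m : ℕ) {D : ℝ} (hD : 2 ≤ D) : 0 ≤ s3_Kap C m D := by
  unfold s3_Kap
  have : 0 ≤ Real.log (2 * D) := Real.log_nonneg (by linarith)
  positivity

/-- numerics: `(4 K₁)^m ≤ Kap²` -/
theorem s3_pow_aux (C m : ℕ) (ℓ K : ℝ) (hC : 1 ≤ C) (hℓ : 1 ≤ ℓ) (h0 : 0 ≤ K) (h1 : K ≤ ((C : ℝ) * ℓ) ^ C) :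
    K ^ m ≤ (((C : ℝ) * ((m : ℝ) + 1) ^ C * ℓ) ^ (C * (m + 1))) ^ 2 := by
  have hC1 : (1 : ℝ) ≤ (C : ℝ) := by exact_mod_cast hC
  have hm : (1 : ℝ) ≤ ((m : ℝ) + 1) ^ C := one_le_pow₀ (by have := Nat.cast_nonneg (α := ℝ) m; linarith)
  generalize ((m : ℝ) + 1) ^ C = q at hm ⊢
  have hb0 : (1 : ℝ) ≤ (C : ℝ) * ℓ := by nlinarith
  have hb : (C : ℝ) * ℓ ≤ (C : ℝ) * q * ℓ := by nlinarith
  have hb1 : 1 ≤ (C : ℝ) * q * ℓ := hb0.trans hb
  calc K ^ m ≤ (((C : ℝ) * ℓ) ^ C) ^ m := pow_le_pow_left₀ h0 h1 m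
    _ = ((C : ℝ) * ℓ) ^ (C * m) := (pow_mul _ _ _).symm
    _ ≤ ((C : ℝ) * q * ℓ) ^ (C * m) := pow_le_pow_left₀ (by linarith) hb _
    _ ≤ ((C : ℝ) * q * ℓ) ^ (C * (m + 1)) := pow_le_pow_right₀ hb1 (Nat.mul_le_mul_left _ (Nat.le_succ m))
    _ ≤ (((C : ℝ) * q * ℓ) ^ (C * (m + 1))) ^ 2 := by
        have : 1 ≤ ((C : ℝ) * q * ℓ) ^ (C * (m + 1)) := one_le_pow₀ hb1
        generalize ((C : ℝ) * q * ℓ) ^ (C * (m + 1)) = y at this ⊢
        nlinarith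

theorem s3_K1_pow_le' (D : ℝ) (m : ℕ) (hD : 2 ≤ D) : (4 * s3_K1 D) ^ m ≤ s3_Kap 200 m D ^ 2 :=
  s3_pow_aux 200 m (Real.log (2 * D)) (4 * s3_K1 D) (by norm_num) (s3_log_two_D D hD)
    (by have := s3_one_le_K1 D; linarith) (s3_K1_le' D hD)

theorem s3_K1_pow_le : ∃ C : ℕ, ∀ (D : ℝ) (m : ℕ), 2 ≤ D → (4 * s3_K1 D) ^ m ≤ s3_Kap C m D ^ 2 :=
  ⟨200, s3_K1_pow_le'⟩

theorem ComprFor.mono {R : Cell} {W : List ((Cell → Finset Col) × Bool)} {Kap Kap' : ℝ} (h : ComprFor R W Kap)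
    (h0 : 0 ≤ Kap) (hK : Kap ≤ Kap') : ComprFor R W Kap' := by
  intro ι _ B u hu hloc hB z
  refine (h ι B u hu hloc hB z).trans ?_
  gcongr

section
variable {R : Cell} {𝒱 : Set Col} {D : ℝ}

/-- the abstract product of factors is `s7prod` -/
theorem s3_ZS_eq (h : ColBudget R 𝒱 D) (W : List ((Cell → Finset Col) × Bool)) (hW : ∀ f ∈ W, s3_MaskIn R 𝒱 f.1)
    (w : List Bool) (z : XV) :
    (s3_mkSys h).ZS (W.map fun f => (s3_mask R 𝒱 f.1, f.2)) w z = s7prod W (s3_cell R w) z := by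
  induction W with
  | nil => rfl
  | cons f W ih =>
    have ih' := ih fun f' hf' => hW f' (List.mem_cons_of_mem _ hf')
    have hP := s3_mkSys_P h (hW f List.mem_cons_self) w
    simp only [List.map_cons, s3_Sys.ZS, s7prod, LinearMap.comp_apply, ContinuousLinearMap.comp_apply, ih']
    unfold s3_Sys.fac s7fac
    dsimp only
    rw [hP]
    split_ifs
    · rfl
    · rfl

/-- compression with the explicit constant, seminorm rows with Bessel constant `A` -/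
theorem s3_compression (h : ColBudget R 𝒱 D) (W : List ((Cell → Finset Col) × Bool))
    (hW : ∀ f ∈ W, s3_MaskIn R 𝒱 f.1) {ι : Type*} (s : Finset ι) (B : ι → Seminorm ℂ XV) (u : ι → Cell)
    (hu : ∀ ν ∈ s, u ν ≤ R) (A : ℝ) (hA : 0 ≤ A) (hB : ∀ x, ∑ ν ∈ s, (B ν x) ^ 2 ≤ A * ‖x‖ ^ 2)
    (hloc : ∀ ν ∈ s, ∀ z, B ν (restr (u ν).set z) = B ν z) (z : XV) :
    ∑ ν ∈ s, (B ν (s7prod W (u ν) z)) ^ 2 ≤ A * (4 * s3_K1 D) ^ W.length * ‖z‖ ^ 2 := by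
  have h1 := (s3_mkSys h).compression_signed (W.map fun f => (s3_mask R 𝒱 f.1, f.2))
    (by
      intro f hf
      obtain ⟨f', hf', rfl⟩ := List.mem_map.mp hf
      exact s3_mask_isMask h (hW f' hf'))
    s B (fun ν => s3_word R (u ν)) A hA hB
    (by
      intro ν hν z
      have : (s3_mkSys h).E (s3_word R (u ν)) z = restr (u ν).set z := by
        show restr (s3_cell R (s3_word R (u ν))).set z = _
        rw [s3_cell_word (hu ν hν)]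
      rw [this, hloc ν hν]) z
  rw [List.length_map] at h1
  refine le_trans (le_of_eq ?_) h1
  refine Finset.sum_congr rfl fun ν hν => ?_
  rw [s3_ZS_eq h W hW, s3_cell_word (hu ν hν)]

end

/-- **Lemma 3.4 (Compression)**, explicit constant. -/
theorem s3_comprFor' (R : Cell) (𝒱 : Set Col) (D : ℝ) (h : ColBudget R 𝒱 D)
    (W : List ((Cell → Finset Col) × Bool)) (hW : ∀ f ∈ W, s3_MaskIn R 𝒱 f.1) :
      ComprFor R W (s3_Kap 200 W.length D) := by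
  have hC := s3_K1_pow_le'
  intro ι _ B u hu hloc hB z
  have h1 := s3_compression h W hW Finset.univ
    (fun ν => (normSeminorm ℂ XV).comp (B ν : XV →ₗ[ℂ] XV)) u (fun ν _ => hu ν) 1 zero_le_one
    (fun x => by simpa using hB x)
    (fun ν _ z => by
      have := congrArg (fun T : XV →L[ℂ] XV => T z) (hloc ν)
      simp only [ContinuousLinearMap.comp_apply] at this
      simp only [Seminorm.comp_apply, ContinuousLinearMap.coe_coe, coe_normSeminorm]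
      rw [← this]) z
  have h2 : ∑ ν, ‖B ν (s7prod W (u ν) z)‖ ^ 2 ≤ 1 * (4 * s3_K1 D) ^ W.length * ‖z‖ ^ 2 := by
    simpa using h1
  refine h2.trans ?_
  rw [one_mul]
  gcongr
  exact hC D W.length h.two_le

/-- **Lemma 3.4 (Compression).** -/
theorem s3_comprFor : ∃ C : ℕ, ∀ (R : Cell) (𝒱 : Set Col) (D : ℝ), ColBudget R 𝒱 D →
    ∀ W : List ((Cell → Finset Col) × Bool), (∀ f ∈ W, s3_MaskIn R 𝒱 f.1) →
      ComprFor R W (s3_Kap C W.length D) :=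
  ⟨200, s3_comprFor'⟩

/-- the constant with real exponents -/
theorem s3_Kap_eq (m : ℕ) (D : ℝ) :
    s3_Kap 200 m D = ((200 : ℝ) * ((m : ℝ) + 1) ^ (200 : ℝ) * Real.log (2 * D)) ^ ((200 : ℝ) * ((m : ℝ) + 1)) := by
  unfold s3_Kap
  have e1 : ((m : ℝ) + 1) ^ (200 : ℝ) = ((m : ℝ) + 1) ^ (200 : ℕ) := by
    rw [← Real.rpow_natCast]; norm_num
  have e2 : (200 : ℝ) * ((m : ℝ) + 1) = ((200 * (m + 1) : ℕ) : ℝ) := by push_cast; ring
  rw [e1, e2, Real.rpow_natCast]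
  norm_num

/-- the column budget of Sec. 3.2 from the budget of a catalog of bounded chart atoms (only the cells below `R` matter) -/
theorem s3_colBudget_of_chart {R : Cell} {All : Cell → Finset Col} {ch : ℕ → Chart} {D : ℝ} (hD : 2 ≤ D)
    (hbirth : ∀ I, I ≤ R → ∀ Φ ∈ All I, I ≤ Φ.birth)
    (hlab : ∀ I I', I ≤ R → I' ≤ R → ∀ Φ ∈ All I, ∀ Φ' ∈ All I', Φ.lab = Φ'.lab → Φ = Φ')
    (hchart : ∀ I, I ≤ R → ∀ Φ ∈ All I, Φ.phi = (ch Φ.lab).eval)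
    (hcplx : ∀ I, I ≤ R → ∀ Φ ∈ All I, (ch Φ.lab).Cplx D)
    (hbdd : ∀ I, I ≤ R → ∀ Φ ∈ All I, (ch Φ.lab).Bdd)
    (heps : ∀ I, I ≤ R → ∀ Φ ∈ All I, D⁻¹ ≤ Real.sqrt Φ.eps ∧ Φ.eps ≤ 1)
    (hcount : ∀ I, I ≤ R → ∀ A : Finset Col, (∀ Φ ∈ A, (∃ I', I' ≤ R ∧ Φ ∈ All I') ∧ I ≤ Φ.birth) → (A.card : ℝ) ≤ D) :
    ColBudget R {Φ | ∃ I, I ≤ R ∧ Φ ∈ All I} D where
  two_le := hD
  ok := by
    rintro Φ ⟨I, hI, hΦ⟩
    refine ⟨?_, ?_, (heps I hI Φ hΦ).1⟩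
    · rw [hchart I hI Φ hΦ]; exact xv_chart_measurable _ (hcplx I hI Φ hΦ)
    · intro y _
      have h1 : ‖Φ.phi y‖ ≤ 1 := by rw [hchart I hI Φ hΦ]; exact hbdd I hI Φ hΦ y
      have h2 : Real.sqrt Φ.eps ≤ 1 := Real.sqrt_le_one.mpr (heps I hI Φ hΦ).2
      have h3 : ‖((Real.sqrt Φ.eps : ℝ) : ℂ) • priv Φ.lab‖ ≤ 1 := by
        rw [norm_smul, xv_norm_priv, mul_one, Complex.norm_real, Real.norm_eq_abs,
          abs_of_nonneg (Real.sqrt_nonneg _)]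
        exact h2
      calc ‖Φ.fn y‖ ≤ ‖ofPhys (Φ.phi y)‖ + ‖((Real.sqrt Φ.eps : ℝ) : ℂ) • priv Φ.lab‖ := norm_add_le _ _
        _ ≤ 1 + 1 := by rw [xv_norm_ofPhys]; exact add_le_add h1 h3
        _ ≤ D := by linarith
  meet := by
    rintro Φ ⟨I, hI, hΦ⟩
    exact ⟨I, hI, hbirth I hI Φ hΦ⟩
  lab := by
    rintro Φ ⟨I, hI, hΦ⟩ Φ' ⟨I', hI', hΦ'⟩ h
    exact hlab I I' hI hI' Φ hΦ Φ' hΦ' h
  count := hcount

theorem s3_colBudget_of_bud {R : Cell} {All : Cell → Finset Col} {ch : ℕ → Chart} {D : ℝ} (hD : 2 ≤ D)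
    (hI : Inh R All) (hB : Bud R All ch D) : ColBudget R {Φ | ∃ I, I ≤ R ∧ Φ ∈ All I} D :=
  s3_colBudget_of_chart hD (fun I _ => hI.birth I) (fun I I' _ _ => hI.lab I I') (fun I _ => hB.chart I)
    (fun I _ => hB.cplx I) (fun I _ => hB.bdd I) (fun I _ => hB.eps I) hB.count

/-- **`ComprGoal` of S10/Att.lean** (verbatim, unfolded) -/
theorem s3_comprGoal :
    ∃ C : ℝ, 1 ≤ C ∧ ∀ (R : Cell) (ch : ℕ → Chart) (D : ℝ) (W : List ((Cell → Finset Col) × Bool)) (All : Cell → Finset Col),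
    2 ≤ D → Inh R All → Bud R All ch D → (∀ f ∈ W, Inh R f.1 ∧ ∀ I, f.1 I ⊆ All I) →
    ComprFor R W ((C * ((W.length : ℝ) + 1) ^ C * Real.log (2 * D)) ^ (C * ((W.length : ℝ) + 1))) := by
  refine ⟨200, by norm_num, fun R ch D W All hD hI hB hW => ?_⟩
  rw [← s3_Kap_eq]
  exact s3_comprFor' R _ D (s3_colBudget_of_bud hD hI hB) W fun f hf =>
    s3_MaskIn.of_inh (hW f hf).1 fun I hIR Φ hΦ => ⟨I, hIR, (hW f hf).2 I hΦ⟩

/-- rows with Bessel constant `A` -/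
theorem ComprFor.bessel {R : Cell} {W : List ((Cell → Finset Col) × Bool)} {Kap : ℝ} (h : ComprFor R W Kap)
    (ι : Type) [Fintype ι] (B : ι → XV →L[ℂ] XV) (u : ι → Cell) (hu : ∀ ν, u ν ≤ R)
    (hloc : ∀ ν, B ν = (B ν).comp (restr (u ν).set)) (A : ℝ) (hA : 0 ≤ A) (hB : ∀ z, ∑ ν, ‖B ν z‖ ^ 2 ≤ A * ‖z‖ ^ 2)
    (z : XV) : ∑ ν, ‖B ν (s7prod W (u ν) z)‖ ^ 2 ≤ A * Kap ^ 2 * ‖z‖ ^ 2 := by
  rcases hA.eq_or_lt with hA0 | hA0
  · have h0 : ∀ ν x, B ν x = 0 := by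
      intro ν x
      have h1 := hB x
      rw [← hA0, zero_mul] at h1
      have h2 : ‖B ν x‖ ^ 2 ≤ 0 :=
        (Finset.single_le_sum (f := fun ν => ‖B ν x‖ ^ 2) (fun _ _ => sq_nonneg _) (Finset.mem_univ ν)).trans h1
      have : ‖B ν x‖ = 0 := by nlinarith [norm_nonneg (B ν x)]
      exact norm_eq_zero.mp this
    simp [h0, ← hA0]
  · set r : ℝ := (Real.sqrt A)⁻¹ with hr
    have hr0 : 0 < r := by positivity
    have hr2 : r ^ 2 * A = 1 := by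
      rw [hr, inv_pow, Real.sq_sqrt hA]
      exact inv_mul_cancel₀ hA0.ne'
    have hn : ∀ x : XV, ‖(r : ℂ) • x‖ ^ 2 = r ^ 2 * ‖x‖ ^ 2 := by
      intro x
      rw [norm_smul, Complex.norm_real, Real.norm_eq_abs, abs_of_pos hr0, mul_pow]
    have h1 := h ι (fun ν => (r : ℂ) • B ν) u hu
      (fun ν => by
        ext x
        have := congrArg (fun T : XV →L[ℂ] XV => T x) (hloc ν)
        simp only [ContinuousLinearMap.comp_apply] at this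
        simp only [ContinuousLinearMap.comp_apply, smul_apply]
        rw [← this])
      (fun x => by
        simp only [smul_apply, hn]
        rw [← Finset.mul_sum]
        calc r ^ 2 * ∑ ν, ‖B ν x‖ ^ 2 ≤ r ^ 2 * (A * ‖x‖ ^ 2) := by gcongr; exact hB x
          _ = ‖x‖ ^ 2 := by rw [← mul_assoc, hr2, one_mul]) z
    simp only [smul_apply, hn] at h1
    rw [← Finset.mul_sum] at h1
    calc ∑ ν, ‖B ν (s7prod W (u ν) z)‖ ^ 2 = A * (r ^ 2 * ∑ ν, ‖B ν (s7prod W (u ν) z)‖ ^ 2) := by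
          rw [← mul_assoc, mul_comm A, hr2, one_mul]
      _ ≤ A * (Kap ^ 2 * ‖z‖ ^ 2) := by gcongr
      _ = _ := by ring

/-- finite signed / complex averages of products cost the total variation of the weights -/
theorem ComprFor.avg {R : Cell} {Kap : ℝ} {Ω : Type*} (t : Finset Ω) (wt : Ω → ℂ)
    (W : Ω → List ((Cell → Finset Col) × Bool)) (h : ∀ ω ∈ t, ComprFor R (W ω) Kap) (hK : 0 ≤ Kap)
    (ι : Type) [Fintype ι] (B : ι → XV →L[ℂ] XV) (u : ι → Cell) (hu : ∀ ν, u ν ≤ R)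
    (hloc : ∀ ν, B ν = (B ν).comp (restr (u ν).set)) (hB : ∀ z, ∑ ν, ‖B ν z‖ ^ 2 ≤ ‖z‖ ^ 2) (z : XV) :
    ∑ ν, ‖B ν (∑ ω ∈ t, wt ω • s7prod (W ω) (u ν) z)‖ ^ 2 ≤ ((∑ ω ∈ t, ‖wt ω‖) * Kap) ^ 2 * ‖z‖ ^ 2 := by
  have h1 := s3_sum_sq_avg (Finset.univ : Finset ι) t (fun ω => ‖wt ω‖)
    (fun ω ν => ‖B ν (s7prod (W ω) (u ν) z)‖) (Kap * ‖z‖) (by positivity) (fun _ _ => norm_nonneg _)
    (fun _ _ _ _ => norm_nonneg _)
    (fun ω hω => by rw [mul_pow]; exact h ω hω ι B u hu hloc hB z)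
  calc ∑ ν, ‖B ν (∑ ω ∈ t, wt ω • s7prod (W ω) (u ν) z)‖ ^ 2
      ≤ ∑ ν, (∑ ω ∈ t, ‖wt ω‖ * ‖B ν (s7prod (W ω) (u ν) z)‖) ^ 2 := by
        refine Finset.sum_le_sum fun ν _ => ?_
        refine pow_le_pow_left₀ (norm_nonneg _) ?_ 2
        rw [map_sum]
        refine (norm_sum_le _ _).trans (le_of_eq ?_)
        refine Finset.sum_congr rfl fun ω _ => ?_
        rw [map_smul, norm_smul]
    _ ≤ ((∑ ω ∈ t, ‖wt ω‖) * (Kap * ‖z‖)) ^ 2 := h1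
    _ = _ := by ring

end Claimed.Agent.R258
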