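/-
Row 258 (S0498), block [S3] = Sec. 3 compression.tex (architect helper93).
LOCAL COLUMN PROJECTIONS in the abstract system: `P A w` (projection onto the constant coefficient combinations of the columns
of `A` restricted to the cell `w`), coefficient vectors, inherited masks, direct sums `PP M π` over partitions, local products
`Z M m w = P^m_w ⋯ P^1_w`; abstract form of `lem:private-columns`.
-/
import Claimed.Agent.R258.Pack016

set_option autoImplicit false
set_option linter.unusedSectionVars false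

namespace Claimed.Agent.R258

open scoped InnerProductSpace

variable {𝕜 X V : Type*} [RCLike 𝕜] [NormedAddCommGroup X] [InnerProductSpace 𝕜 X]

namespace s3_Sys

variable (S : s3_Sys 𝕜 X V)

/-- span of the columns of `A` restricted to `w` -/
def W (A : Finset V) (w : List Bool) : Submodule 𝕜 X :=
  Submodule.span 𝕜 ((fun v => S.E w (S.col v)) '' (A : Set V))

instance (A : Finset V) (w : List Bool) : FiniteDimensional 𝕜 (S.W A w) :=
  FiniteDimensional.span_of_finite 𝕜 (A.finite_toSet.image _)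

/-- `P_{w,A}` -/
noncomputable def P (A : Finset V) (w : List Bool) : X →L[𝕜] X := (S.W A w).starProjection

/-- an inherited mask family -/
structure IsMask (M : List Bool → Finset V) : Prop where
  avail : ∀ w, ∀ v ∈ M w, S.birth v <:+ w
  inherit : ∀ b w, M w ⊆ M (b :: w)

/-- `P_w^m ⋯ P_w^1` (layer `i` of the paper is `M (i-1)`) -/
noncomputable def Z (M : ℕ → List Bool → Finset V) : ℕ → List Bool → X →L[𝕜] X
  | 0, _ => ContinuousLinearMap.id 𝕜 X
  | m + 1, w => (S.P (M m w) w).comp (Z M m w)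

/-- direct sum of the local projections over a finite family of cells -/
noncomputable def PP (M : List Bool → Finset V) (π : Finset (List Bool)) : X →ₗ[𝕜] X :=
  ∑ Q ∈ π, (S.P (M Q) Q : X →ₗ[𝕜] X)

variable {S}

theorem IsMask.mono {M : List Bool → Finset V} (hM : S.IsMask M) {w w' : List Bool} (h : w <:+ w') : M w ⊆ M w' := by
  obtain ⟨t, rfl⟩ := h
  induction t with
  | nil => exact Finset.Subset.refl _
  | cons b t ih => exact ih.trans (hM.inherit b (t ++ w))

variable (S)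

/-! ## Basic properties of `P A w` -/

theorem P_symm (A : Finset V) (w : List Bool) (x y : X) : ⟪S.P A w x, y⟫_𝕜 = ⟪x, S.P A w y⟫_𝕜 :=
  Submodule.inner_starProjection_left_eq_right _ _ _

theorem P_idem (A : Finset V) (w : List Bool) (x : X) : S.P A w (S.P A w x) = S.P A w x :=
  Submodule.starProjection_eq_self_iff.2 (Submodule.starProjection_apply_mem _ _)

theorem norm_P_le (A : Finset V) (w : List Bool) (x : X) : ‖S.P A w x‖ ≤ ‖x‖ :=
  Submodule.norm_starProjection_apply_le _ _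

theorem P_mem (A : Finset V) (w : List Bool) (x : X) : S.P A w x ∈ S.W A w :=
  Submodule.starProjection_apply_mem _ _

theorem P_fix_of_mem {A : Finset V} {w : List Bool} {x : X} (h : x ∈ S.W A w) : S.P A w x = x :=
  Submodule.starProjection_eq_self_iff.2 h

theorem P_col {A : Finset V} {v : V} (hv : v ∈ A) (w : List Bool) : S.P A w (S.E w (S.col v)) = S.E w (S.col v) :=
  S.P_fix_of_mem (Submodule.subset_span ⟨v, hv, rfl⟩)

theorem E_of_mem_W {A : Finset V} {w : List Bool} {y : X} (h : y ∈ S.W A w) : S.E w y = y := by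
  have hle : S.W A w ≤ LinearMap.eqLocus (S.E w) LinearMap.id := by
    unfold W
    rw [Submodule.span_le]
    rintro _ ⟨v, _, rfl⟩
    exact S.E_idem w _
  exact hle h

theorem E_P (A : Finset V) (w : List Bool) (x : X) : S.E w (S.P A w x) = S.P A w x :=
  S.E_of_mem_W (S.P_mem A w x)

theorem P_E (A : Finset V) (w : List Bool) (x : X) : S.P A w (S.E w x) = S.P A w x := by
  refine ext_inner_right 𝕜 fun y => ?_
  rw [S.P_symm, S.E_symm, S.E_P, ← S.P_symm]

/-- `⟨z, P z⟩ = ‖P z‖²` -/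
theorem inner_P_self (A : Finset V) (w : List Bool) (z : X) : ⟪z, S.P A w z⟫_𝕜 = ((‖S.P A w z‖ ^ 2 : ℝ) : 𝕜) := by
  rw [← S.P_idem A w z, ← S.P_symm, S.P_idem, inner_self_eq_norm_sq_to_K]
  norm_cast

/-- projections on incomparable cells annihilate each other -/
theorem P_P_incomp (A A' : Finset V) {w w' : List Bool} (h1 : ¬ w <:+ w') (h2 : ¬ w' <:+ w) (x : X) :
    S.P A w (S.P A' w' x) = 0 := by
  rw [← S.P_E, ← S.E_P A' w' x, S.E_incomp h1 h2, map_zero]

/-! ## Coefficient vectors -/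

theorem exists_coef (A : Finset V) (w : List Bool) (x : X) :
    ∃ c : V → 𝕜, (∀ v, v ∉ A → c v = 0) ∧ S.P A w x = ∑ v ∈ A, c v • S.E w (S.col v) := by
  classical
  have h := S.P_mem A w x
  unfold W at h
  rw [Submodule.mem_span_image_finset_iff_exists_fun'] at h
  obtain ⟨c, hc⟩ := h
  refine ⟨fun v => if v ∈ A then c v else 0, fun v hv => if_neg hv, ?_⟩
  rw [← hc]
  exact Finset.sum_congr rfl fun v hv => by simp only [if_pos hv]

/-- the coefficient vector of `P A w x`, extended by zero -/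
noncomputable def coef (A : Finset V) (w : List Bool) (x : X) : V → 𝕜 := (S.exists_coef A w x).choose

theorem coef_zero {A : Finset V} (w : List Bool) (x : X) {v : V} (hv : v ∉ A) : S.coef A w x v = 0 :=
  (S.exists_coef A w x).choose_spec.1 v hv

theorem P_eq_sum (A : Finset V) (w : List Bool) (x : X) :
    S.P A w x = ∑ v ∈ A, S.coef A w x v • S.E w (S.col v) :=
  (S.exists_coef A w x).choose_spec.2

/-- restriction of a constant coefficient combination to a smaller cell, written over a larger label set -/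
theorem E_P_eq_sum {A A' : Finset V} (hA : A ⊆ A') {w w' : List Bool} (h : w <:+ w') (x : X) :
    S.E w' (S.P A w x) = ∑ v ∈ A', S.coef A w x v • S.E w' (S.col v) := by
  rw [S.P_eq_sum, map_sum]
  rw [← Finset.sum_subset hA (fun v _ hv => by rw [S.coef_zero w x hv, zero_smul])]
  exact Finset.sum_congr rfl fun v _ => by rw [map_smul, S.E_sub_comp h]

/-! ## Abstract form of Lemma 3.2 (`lem:private-columns`) -/

/-- coefficient bound `‖c‖² ≤ D⁷ (⨍_w ‖z‖)²` -/
theorem coef_sq_le {A : Finset V} {w : List Bool} (hA : ∀ v ∈ A, S.birth v <:+ w) (z : X) :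
    ∑ v ∈ A, ‖S.coef A w z v‖ ^ 2 ≤ S.D ^ 7 * S.avg z w ^ 2 := by
  set c := S.coef A w z with hc
  set n2 : ℝ := ∑ v ∈ A, ‖c v‖ ^ 2 with hn2
  set Y : ℝ := ‖S.P A w z‖ ^ 2 with hY
  have hD := S.D_pos
  have hl := S.len_pos w
  have hL := S.L1_nonneg z w
  have hn0 : 0 ≤ n2 := Finset.sum_nonneg fun v _ => by positivity
  have hY0 : 0 ≤ Y := by positivity
  -- lower bound
  have h1 : S.len w * n2 ≤ S.D ^ 2 * Y := by
    have := S.col_lower w A hA c
    rwa [← S.P_eq_sum] at this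
  -- upper bound
  have h2 : Y ≤ ∑ v ∈ A, ‖c v‖ * (S.D * S.L1 z w) := by
    have e1 : ((Y : ℝ) : 𝕜) = ⟪S.P A w z, z⟫_𝕜 := by
      rw [S.P_symm, S.inner_P_self]
    have e2 : ⟪S.P A w z, z⟫_𝕜 = ∑ v ∈ A, (starRingEnd 𝕜) (c v) * ⟪S.E w (S.col v), z⟫_𝕜 := by
      rw [S.P_eq_sum, sum_inner]
      exact Finset.sum_congr rfl fun v _ => by rw [inner_smul_left]
    have e3 : Y = ‖((Y : ℝ) : 𝕜)‖ := by rw [RCLike.norm_ofReal, abs_of_nonneg hY0]
    rw [e3, e1, e2]
    refine (norm_sum_le _ _).trans (Finset.sum_le_sum fun v hv => ?_)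
    rw [norm_mul, RCLike.norm_conj]
    exact mul_le_mul_of_nonneg_left (S.col_pair w v z (hA v hv)) (norm_nonneg _)
  have h3 : (∑ v ∈ A, ‖c v‖) ^ 2 ≤ S.D * n2 := by
    have := sq_sum_le_card_mul_sum_sq (s := A) (f := fun v => ‖c v‖)
    exact this.trans (mul_le_mul_of_nonneg_right (S.card_le w A hA) hn0)
  have h4 : Y ^ 2 ≤ S.D ^ 3 * S.L1 z w ^ 2 * n2 := by
    rw [← Finset.sum_mul] at h2
    calc Y ^ 2 ≤ ((∑ v ∈ A, ‖c v‖) * (S.D * S.L1 z w)) ^ 2 := pow_le_pow_left₀ hY0 h2 2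
      _ = (∑ v ∈ A, ‖c v‖) ^ 2 * (S.D * S.L1 z w) ^ 2 := by ring
      _ ≤ (S.D * n2) * (S.D * S.L1 z w) ^ 2 := mul_le_mul_of_nonneg_right h3 (by positivity)
      _ = S.D ^ 3 * S.L1 z w ^ 2 * n2 := by ring
  have h5 : (S.len w * n2) ^ 2 ≤ S.D ^ 7 * S.L1 z w ^ 2 * n2 := by
    calc (S.len w * n2) ^ 2 ≤ (S.D ^ 2 * Y) ^ 2 := pow_le_pow_left₀ (by positivity) h1 2
      _ = S.D ^ 4 * Y ^ 2 := by ring
      _ ≤ S.D ^ 4 * (S.D ^ 3 * S.L1 z w ^ 2 * n2) := mul_le_mul_of_nonneg_left h4 (by positivity)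
      _ = S.D ^ 7 * S.L1 z w ^ 2 * n2 := by ring
  unfold avg
  rw [div_pow, mul_div_assoc', le_div_iff₀ (by positivity)]
  rcases hn0.eq_or_lt with h0 | hpos
  · rw [← h0, zero_mul]; positivity
  · have h6 : n2 * (n2 * S.len w ^ 2) ≤ n2 * (S.D ^ 7 * S.L1 z w ^ 2) := by nlinarith [h5]
    exact le_of_mul_le_mul_left h6 hpos

/-- `∑ |c_v| ≤ D⁴ ⨍_w ‖z‖` -/
theorem coef_sum_le {A : Finset V} {w : List Bool} (hA : ∀ v ∈ A, S.birth v <:+ w) (z : X) :
    ∑ v ∈ A, ‖S.coef A w z v‖ ≤ S.D ^ 4 * S.avg z w := by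
  have hD := S.D_pos
  have ha := S.avg_nonneg z w
  have h1 := sq_sum_le_card_mul_sum_sq (s := A) (f := fun v => ‖S.coef A w z v‖)
  have h2 : (∑ v ∈ A, ‖S.coef A w z v‖) ^ 2 ≤ (S.D ^ 4 * S.avg z w) ^ 2 := by
    calc _ ≤ (A.card : ℝ) * ∑ v ∈ A, ‖S.coef A w z v‖ ^ 2 := h1
      _ ≤ S.D * (S.D ^ 7 * S.avg z w ^ 2) :=
        mul_le_mul (S.card_le w A hA) (S.coef_sq_le hA z) (Finset.sum_nonneg fun v _ => by positivity) hD.le
      _ = (S.D ^ 4 * S.avg z w) ^ 2 := by ring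
  exact (abs_le_of_sq_le_sq' h2 (by positivity)).2

/-- `‖P_{w,A} z‖_{L^∞(w)} ≤ D⁵ ⨍_w ‖z‖`, integrated over a sub-cell `w'` -/
theorem normsq_E_P_le {A : Finset V} {w w' : List Bool} (hA : ∀ v ∈ A, S.birth v <:+ w) (h : w <:+ w') (z : X) :
    ‖S.E w' (S.P A w z)‖ ^ 2 ≤ (S.D ^ 5 * S.avg z w) ^ 2 * S.len w' := by
  have hD := S.D_pos
  have ha := S.avg_nonneg z w
  have hl := S.len_pos w'
  rw [S.E_P_eq_sum (Finset.Subset.refl A) h]
  have h1 : ‖∑ v ∈ A, S.coef A w z v • S.E w' (S.col v)‖ ≤ ∑ v ∈ A, ‖S.coef A w z v‖ * ‖S.E w' (S.col v)‖ :=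
    (norm_sum_le _ _).trans (Finset.sum_le_sum fun v _ => by rw [norm_smul])
  have h2 : (∑ v ∈ A, ‖S.coef A w z v‖ * ‖S.E w' (S.col v)‖) ^ 2 ≤
      (∑ v ∈ A, ‖S.coef A w z v‖ ^ 2) * ∑ v ∈ A, ‖S.E w' (S.col v)‖ ^ 2 := Finset.sum_mul_sq_le_sq_mul_sq _ _ _
  have h3 : ∑ v ∈ A, ‖S.E w' (S.col v)‖ ^ 2 ≤ S.D * (S.D ^ 2 * S.len w') := by
    have : ∑ v ∈ A, ‖S.E w' (S.col v)‖ ^ 2 ≤ (A.card : ℝ) * (S.D ^ 2 * S.len w') := by
      rw [← nsmul_eq_mul]
      exact Finset.sum_le_card_nsmul _ _ _ fun v hv => S.col_upper w' v ((hA v hv).trans h)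
    exact this.trans (mul_le_mul_of_nonneg_right (S.card_le w A hA) (by positivity))
  calc _ ≤ (∑ v ∈ A, ‖S.coef A w z v‖ * ‖S.E w' (S.col v)‖) ^ 2 := pow_le_pow_left₀ (norm_nonneg _) h1 2
    _ ≤ (∑ v ∈ A, ‖S.coef A w z v‖ ^ 2) * ∑ v ∈ A, ‖S.E w' (S.col v)‖ ^ 2 := h2
    _ ≤ (S.D ^ 7 * S.avg z w ^ 2) * (S.D * (S.D ^ 2 * S.len w')) :=
      mul_le_mul (S.coef_sq_le hA z) h3 (Finset.sum_nonneg fun v _ => by positivity) (by positivity)
    _ = (S.D ^ 5 * S.avg z w) ^ 2 * S.len w' := by ring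

/-- `‖P_{w,A} z‖_{L^∞(w)} ≤ D⁵ ⨍_w ‖z‖`, tested against `1_{w'} y` -/
theorem inner_E_P_le {A : Finset V} {w w' : List Bool} (hA : ∀ v ∈ A, S.birth v <:+ w) (h : w <:+ w') (y z : X) :
    ‖⟪S.E w' y, S.P A w z⟫_𝕜‖ ≤ S.D ^ 5 * S.avg z w * S.L1 y w' := by
  have hD := S.D_pos
  have hL := S.L1_nonneg y w'
  rw [S.E_symm, S.E_P_eq_sum (Finset.Subset.refl A) h, inner_sum]
  have h1 : ∀ v ∈ A, ‖⟪y, S.coef A w z v • S.E w' (S.col v)⟫_𝕜‖ ≤ ‖S.coef A w z v‖ * (S.D * S.L1 y w') := by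
    intro v hv
    rw [inner_smul_right, norm_mul, norm_inner_symm]
    exact mul_le_mul_of_nonneg_left (S.col_pair w' v y ((hA v hv).trans h)) (norm_nonneg _)
  calc _ ≤ ∑ v ∈ A, ‖S.coef A w z v‖ * (S.D * S.L1 y w') := (norm_sum_le _ _).trans (Finset.sum_le_sum h1)
    _ = (∑ v ∈ A, ‖S.coef A w z v‖) * (S.D * S.L1 y w') := by rw [Finset.sum_mul]
    _ ≤ (S.D ^ 4 * S.avg z w) * (S.D * S.L1 y w') := mul_le_mul_of_nonneg_right (S.coef_sum_le hA z) (by positivity)
    _ = S.D ^ 5 * S.avg z w * S.L1 y w' := by ring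

/-! ## Direct sums over partitions -/

theorem PP_apply (M : List Bool → Finset V) (π : Finset (List Bool)) (x : X) :
    S.PP M π x = ∑ Q ∈ π, S.P (M Q) Q x := by
  simp [PP]

theorem PP_symm (M : List Bool → Finset V) (π : Finset (List Bool)) (x y : X) :
    ⟪S.PP M π x, y⟫_𝕜 = ⟪x, S.PP M π y⟫_𝕜 := by
  rw [PP_apply, PP_apply, sum_inner, inner_sum]
  exact Finset.sum_congr rfl fun Q _ => S.P_symm _ _ _ _

/-- distinct atoms of a partition are incomparable -/
theorem _root_.Claimed.Agent.R258.s3_Part.incomp {w Q Q' : List Bool} {π : Finset (List Bool)} (h : s3_Part w π)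
    (hQ : Q ∈ π) (hQ' : Q' ∈ π) (hne : Q ≠ Q') : ¬ Q <:+ Q' ∧ ¬ Q' <:+ Q :=
  ⟨fun hs => hne (h.antichain hQ hQ' hs), fun hs => hne (h.antichain hQ' hQ hs).symm⟩

theorem E_P_incomp (A : Finset V) {w w' : List Bool} (h1 : ¬ w <:+ w') (h2 : ¬ w' <:+ w) (x : X) :
    S.E w (S.P A w' x) = 0 := by
  rw [← S.E_P A w' x, S.E_incomp h1 h2]

theorem P_E_incomp (A : Finset V) {w w' : List Bool} (h1 : ¬ w <:+ w') (h2 : ¬ w' <:+ w) (x : X) :
    S.P A w (S.E w' x) = 0 := by
  rw [← S.P_E, S.E_incomp h1 h2, map_zero]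

theorem E_PP_atom (M : List Bool → Finset V) {w Q : List Bool} {π : Finset (List Bool)} (h : s3_Part w π)
    (hQ : Q ∈ π) (x : X) : S.E Q (S.PP M π x) = S.P (M Q) Q x := by
  rw [PP_apply, map_sum, Finset.sum_eq_single Q]
  · exact S.E_P _ _ _
  · intro Q' hQ' hne
    obtain ⟨h1, h2⟩ := h.incomp hQ hQ' (Ne.symm hne)
    exact S.E_P_incomp _ h1 h2 x
  · intro hn; exact absurd hQ hn

/-- restriction of `P_π` to a cell `Q` partitioned by atoms of `π` -/
theorem E_PP_filter (M : List Bool → Finset V) {w Q : List Bool} {π : Finset (List Bool)} (h : s3_Part w π)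
    (hQ : w <:+ Q) (hmax : ∀ Q' ∈ π, Q' <:+ Q → Q' = Q) (x : X) :
    S.E Q (S.PP M π x) = S.PP M (π.filter fun Q' => Q <:+ Q') x := by
  rw [PP_apply, PP_apply, map_sum, Finset.sum_filter]
  apply Finset.sum_congr rfl
  intro Q' hQ'
  by_cases hs : Q <:+ Q'
  · rw [if_pos hs, ← S.E_P (M Q') Q' x, S.E_comp_sub hs]
  · rw [if_neg hs]
    refine S.E_P_incomp _ hs (fun hs' => hs ?_) x
    rw [hmax Q' hQ' hs']

theorem PP_E_root (M : List Bool → Finset V) {w : List Bool} {π : Finset (List Bool)} (h : s3_Part w π) (x : X) :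
    S.PP M π (S.E w x) = S.PP M π x := by
  rw [PP_apply, PP_apply]
  apply Finset.sum_congr rfl
  intro Q hQ
  rw [← S.P_E, S.E_sub_comp (h.suffix hQ), S.P_E]

/-- a restricted column which is available on the atom `Q` is fixed by the partition projection -/
theorem PP_E_col (M : List Bool → Finset V) {w Q : List Bool} {π : Finset (List Bool)} (h : s3_Part w π) (hQ : Q ∈ π)
    {v : V} (hv : v ∈ M Q) : S.PP M π (S.E Q (S.col v)) = S.E Q (S.col v) := by
  rw [PP_apply, Finset.sum_eq_single Q]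
  · exact S.P_col hv Q
  · intro Q' hQ' hne
    obtain ⟨h1, h2⟩ := h.incomp hQ' hQ hne
    exact S.P_E_incomp _ h1 h2 _
  · intro hn; exact absurd hQ hn

variable {S}

/-- inheritance: a partition projection fixes the range of the projection of the partitioned cell -/
theorem IsMask.PP_P {M : List Bool → Finset V} (hM : S.IsMask M) {w : List Bool} {π : Finset (List Bool)}
    (h : s3_Part w π) (x : X) : S.PP M π (S.P (M w) w x) = S.P (M w) w x := by
  rw [S.P_eq_sum, map_sum]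
  apply Finset.sum_congr rfl
  intro v hv
  rw [map_smul, ← S.sum_E h (S.col v), map_sum]
  congr 1
  apply Finset.sum_congr rfl
  intro Q hQ
  exact S.PP_E_col M h hQ (hM.mono (h.suffix hQ) hv)

/-- the same for a cell `u` below the root of the partition which is not strictly inside an atom -/
theorem IsMask.PP_P_sub {M : List Bool → Finset V} (hM : S.IsMask M) {w u : List Bool} {π : Finset (List Bool)}
    (h : s3_Part w π) (hu : w <:+ u) (hmax : ∀ Q' ∈ π, Q' <:+ u → Q' = u) (x : X) :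
    S.PP M π (S.P (M u) u x) = S.P (M u) u x := by
  have hpart := h.restrict hu hmax
  have h1 : S.PP M π (S.P (M u) u x) = S.PP M (π.filter fun Q' => u <:+ Q') (S.P (M u) u x) := by
    rw [PP_apply, PP_apply, Finset.sum_filter]
    apply Finset.sum_congr rfl
    intro Q' hQ'
    by_cases hs : u <:+ Q'
    · rw [if_pos hs]
    · rw [if_neg hs]
      refine S.P_P_incomp _ _ (fun hs' => hs ?_) hs x
      rw [hmax Q' hQ' hs']
  rw [h1]
  exact hM.PP_P hpart x

/-- adjoint form: `P_u P_π = P_u` -/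
theorem IsMask.P_PP_sub {M : List Bool → Finset V} (hM : S.IsMask M) {w u : List Bool} {π : Finset (List Bool)}
    (h : s3_Part w π) (hu : w <:+ u) (hmax : ∀ Q' ∈ π, Q' <:+ u → Q' = u) (x : X) :
    S.P (M u) u (S.PP M π x) = S.P (M u) u x := by
  refine ext_inner_right 𝕜 fun y => ?_
  rw [S.P_symm, S.PP_symm, hM.PP_P_sub h hu hmax, ← S.P_symm]

/-- refining partitions give nested projections -/
theorem IsMask.PP_PP {M : List Bool → Finset V} (hM : S.IsMask M) {w : List Bool} {π π' : Finset (List Bool)}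
    (h : s3_Part w π) (h' : s3_Part w π') (href : ∀ Q' ∈ π', ∃ Q ∈ π, Q <:+ Q') (x : X) :
    S.PP M π' (S.PP M π x) = S.PP M π x := by
  rw [S.PP_apply M π, map_sum]
  apply Finset.sum_congr rfl
  intro Q hQ
  apply hM.PP_P_sub h' (h.suffix hQ)
  intro Q' hQ' hs
  obtain ⟨Q0, hQ0, hs0⟩ := href Q' hQ'
  have : Q0 = Q := h.antichain hQ0 hQ (hs0.trans hs)
  subst this
  exact hs.eq_of_length_le hs0.length_le

/-- the projections of the partitions `π_n` of a stopping chain are nested -/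
theorem IsMask.nested {M : List Bool → Finset V} (hM : S.IsMask M) (tr : List Bool → List Bool → Prop)
    (R : List Bool) (k : ℕ) : s3_Nested fun n => S.PP M (s3_pi tr R k n) :=
  ⟨fun _ x y => S.PP_symm M _ x y,
   fun n n' x hn => hM.PP_PP (s3_pi_part tr R k n) (s3_pi_part tr R k n') (fun _ hQ' => s3_pi_refines hn hQ') x⟩

variable (S)

/-- `‖P_π x‖² = ∑_Q ‖P_Q x‖²` -/
theorem normsq_PP (M : List Bool → Finset V) {w : List Bool} {π : Finset (List Bool)} (h : s3_Part w π) (x : X) :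
    ‖S.PP M π x‖ ^ 2 = ∑ Q ∈ π, ‖S.P (M Q) Q x‖ ^ 2 := by
  classical
  rw [PP_apply]
  have key : ∀ σ : Finset (List Bool), σ ⊆ π → ‖∑ Q ∈ σ, S.P (M Q) Q x‖ ^ 2 = ∑ Q ∈ σ, ‖S.P (M Q) Q x‖ ^ 2 := by
    intro σ
    induction σ using Finset.induction_on with
    | empty => intro _; simp
    | insert a σ ha ih =>
      intro hσ
      rw [Finset.sum_insert ha, Finset.sum_insert ha, ← ih ((Finset.subset_insert a σ).trans hσ)]
      have h0 : ⟪S.P (M a) a x, ∑ Q ∈ σ, S.P (M Q) Q x⟫_𝕜 = 0 := by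
        rw [inner_sum]
        apply Finset.sum_eq_zero
        intro Q hQ
        obtain ⟨h1, h2⟩ := h.incomp (hσ (Finset.mem_insert_self a σ)) (hσ (Finset.mem_insert_of_mem hQ))
          (by rintro rfl; exact ha hQ)
        rw [S.P_symm, S.P_P_incomp _ _ h1 h2, inner_zero_right]
      have := norm_add_sq_eq_norm_sq_add_norm_sq_of_inner_eq_zero (𝕜 := 𝕜) _ _ h0
      nlinarith [this]
  exact key π (Finset.Subset.refl π)

/-- `⟨x, P_π x⟩ = ‖P_π x‖²` -/
theorem inner_PP_self (M : List Bool → Finset V) {w : List Bool} {π : Finset (List Bool)} (h : s3_Part w π) (x : X) :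
    ⟪x, S.PP M π x⟫_𝕜 = ((‖S.PP M π x‖ ^ 2 : ℝ) : 𝕜) := by
  rw [S.normsq_PP M h, PP_apply, inner_sum]
  push_cast
  exact Finset.sum_congr rfl fun Q _ => by rw [S.inner_P_self]; push_cast; rfl

/-! ## Local products -/

theorem Z_succ (M : ℕ → List Bool → Finset V) (m : ℕ) (w : List Bool) (x : X) :
    S.Z M (m + 1) w x = S.P (M m w) w (S.Z M m w x) := rfl

theorem norm_Z_le (M : ℕ → List Bool → Finset V) (m : ℕ) (w : List Bool) (x : X) : ‖S.Z M m w x‖ ≤ ‖x‖ := by
  induction m with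
  | zero => exact le_rfl
  | succ m ih => rw [Z_succ]; exact (S.norm_P_le _ _ _).trans ih

/-- for a nonempty product the input may be restricted to the cell -/
theorem Z_E (M : ℕ → List Bool → Finset V) (m : ℕ) {w w' : List Bool} (h : w <:+ w') (x : X) :
    S.Z M (m + 1) w' (S.E w x) = S.Z M (m + 1) w' x := by
  induction m with
  | zero =>
    rw [Z_succ, Z_succ]
    show S.P (M 0 w') w' (S.E w x) = S.P (M 0 w') w' x
    rw [← S.P_E, S.E_sub_comp h, S.P_E]
  | succ m ih => rw [Z_succ, ih, ← Z_succ]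

/-- locality: on an atom `Q` of the partition the global product is the local product -/
theorem E_Z_atom (M : ℕ → List Bool → Finset V) (π : ℕ → Finset (List Bool)) (m n : ℕ) {w Q : List Bool}
    (h : s3_Part w (π n)) (hQ : Q ∈ π n) (x : X) :
    S.E Q (s3_Z (fun i n => S.PP (M i) (π n)) m n x) = S.E Q (S.Z M m Q x) := by
  induction m with
  | zero => rfl
  | succ m ih =>
    show S.E Q (S.PP (M m) (π n) (s3_Z (fun i n => S.PP (M i) (π n)) m n x)) = _
    rw [S.E_PP_atom (M m) h hQ, ← S.P_E, ih, S.P_E, Z_succ, S.E_P]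

end s3_Sys

end Claimed.Agent.R258
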