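/-
Row 258 (S0498), block [S3] = Sec. 3 compression.tex (architect helper93).
`lem:compression`, paragraphs "Anchors within one size segment" and "Rows assigned to an attempt", in the abstract system.

Number of layers = `m + 1` (masks `M 0, ..., M m`).  `cf u` = last layer coefficient vector `c(u)` of `P_u^{m+1} ⋯ P_u^1 g`.
Anchors = stopping chain `s3_anc (S.trA M m g θ) R` with transition rule `‖c(u) - c(A)‖² > θ`  (`θ = τ² a²`).
`π_n = s3_pi .. R k n`, new roots of the attempt = `s3_act .. R k T`, rows of the attempt = row cells of generation `< T`.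
-/
import Claimed.Agent.R258.S3.Proj

set_option autoImplicit false
set_option linter.unusedSectionVars false

namespace Claimed.Agent.R258

open scoped InnerProductSpace

variable {𝕜 X V : Type*} [RCLike 𝕜] [NormedAddCommGroup X] [InnerProductSpace 𝕜 X]

namespace s3_Sys

variable (S : s3_Sys 𝕜 X V) (M : ℕ → List Bool → Finset V) (m : ℕ) (g : X)

/-- last layer coefficient vector of `P_u^{m+1} ⋯ P_u^1 g` -/
noncomputable def cf (u : List Bool) : V → 𝕜 := S.coef (M m u) u (S.Z M m u g)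

/-- transition rule of the anchors: `‖c(u) - c(A)‖² > θ` -/
def trA (θ : ℝ) (A u : List Bool) : Prop := θ < ∑ v ∈ M m u, ‖S.cf M m g u v - S.cf M m g A v‖ ^ 2

/-- the global products `Z_n = P_{π_n}^{m} ⋯ P_{π_n}^1` of a stopping chain -/
noncomputable def ZG (tr : List Bool → List Bool → Prop) (R : List Bool) (k : ℕ) (m n : ℕ) : X →ₗ[𝕜] X :=
  s3_Z (fun i n => S.PP (M i) (s3_pi tr R k n)) m n

variable {M m}

/-- difference of the constant coefficient combinations of a cell and of one of its ancestors -/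
theorem Z_sub_E_Z (hM : S.IsMask (M m)) {A u : List Bool} (h : A <:+ u) :
    S.Z M (m + 1) u g - S.E u (S.Z M (m + 1) A g)
      = ∑ v ∈ M m u, (S.cf M m g u v - S.cf M m g A v) • S.E u (S.col v) := by
  rw [Z_succ, Z_succ, S.P_eq_sum, S.E_P_eq_sum (hM.mono h) h, ← Finset.sum_sub_distrib]
  exact Finset.sum_congr rfl fun v _ => by rw [sub_smul]; rfl

/-- on a cell `u` below an atom `A` of `π_n` the global product is the local product at `A` -/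
theorem E_ZG (tr : List Bool → List Bool → Prop) (R : List Bool) (k n : ℕ) {A u : List Bool}
    (hA : A ∈ s3_pi tr R k n) (hu : A <:+ u) :
    S.E u (S.ZG M tr R k (m + 1) n (S.E R g)) = S.E u (S.Z M (m + 1) A g) := by
  have hpart := s3_pi_part tr R k n
  rw [← S.E_sub_comp hu, ← S.E_sub_comp hu (S.Z M (m + 1) A g)]
  congr 1
  unfold ZG
  rw [S.E_Z_atom M (s3_pi tr R k) (m + 1) n hpart hA, S.Z_E M m (hpart.suffix hA)]

section rows
variable {ι : Type*} (s : Finset ι) (B : ι → Seminorm 𝕜 X) (u : ι → List Bool)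

/-- anchor contributions of the rows of an attempt -/
theorem attempt_anchor (hM : ∀ i ≤ m, S.IsMask (M i)) (tr : List Bool → List Bool → Prop) (R : List Bool) (k T : ℕ)
    (hB : ∀ h, ∑ ν ∈ s, (B ν h) ^ 2 ≤ ‖h‖ ^ 2) (hloc : ∀ ν ∈ s, ∀ z, B ν (S.E (u ν) z) = B ν z)
    (hu : ∀ ν ∈ s, R <:+ u ν ∧ (u ν).length ≤ R.length + k ∧ s3_gen tr R (u ν) ≤ T) :
    ∑ ν ∈ s, (B ν (S.E (u ν) (S.Z M (m + 1) (s3_top tr R (u ν)) g))) ^ 2
      ≤ ((s3_LT T : ℝ) ^ (m + 1)) ^ 2 * ‖S.E R g‖ ^ 2 := by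
  have h1 := s3_prefix_rows (fun i n => S.PP (M i) (s3_pi tr R k n)) (m + 1) T
    (fun i hi => (hM i (Nat.lt_succ_iff.mp hi)).nested tr R k) s B hB (fun ν => s3_gen tr R (u ν))
    (fun ν hν => (hu ν hν).2.2) (S.E R g)
  refine le_trans (le_of_eq ?_) h1
  apply Finset.sum_congr rfl
  intro ν hν
  obtain ⟨hR, hk, _⟩ := hu ν hν
  have hA : s3_top tr R (u ν) ∈ s3_pi tr R k (s3_gen tr R (u ν)) := s3_act_subset tr R k _ (s3_top_mem_act hR hk)
  rw [← S.E_ZG g tr R k _ hA (s3_top_suffix hR), hloc ν hν]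
  rfl

/-- coefficient errors: Cauchy-Schwarz in `v`, row contraction for each fixed label, pathwise budget -/
theorem rows_error (R : List Bool)
    (hB : ∀ h, ∑ ν ∈ s, (B ν h) ^ 2 ≤ ‖h‖ ^ 2) (hloc : ∀ ν ∈ s, ∀ z, B ν (S.E (u ν) z) = B ν z)
    (hu : ∀ ν ∈ s, R <:+ u ν) (F : ι → Finset V) (e : ι → V → 𝕜) (θ : ℝ) (hθ : 0 ≤ θ)
    (he : ∀ ν ∈ s, ∑ v ∈ F ν, ‖e ν v‖ ^ 2 ≤ θ) :
    ∑ ν ∈ s, (B ν (∑ v ∈ F ν, e ν v • S.E (u ν) (S.col v))) ^ 2 ≤ θ * (S.D ^ 3 * S.len R) := by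
  classical
  set Fall : Finset V := s.biUnion F with hFall
  have hrow : ∀ ν ∈ s, (B ν (∑ v ∈ F ν, e ν v • S.E (u ν) (S.col v))) ^ 2
      ≤ θ * ∑ v ∈ Fall, (B ν (S.E R (S.col v))) ^ 2 := by
    intro ν hν
    have h1 : B ν (∑ v ∈ F ν, e ν v • S.E (u ν) (S.col v)) ≤ ∑ v ∈ F ν, ‖e ν v‖ * B ν (S.E R (S.col v)) := by
      refine (Finset.le_sum_of_subadditive (B ν) (map_zero _).le (map_add_le_add _) _ _).trans (le_of_eq ?_)
      apply Finset.sum_congr rfl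
      intro v _
      rw [map_smul_eq_mul, ← hloc ν hν (S.E R (S.col v)), S.E_sub_comp (hu ν hν)]
    have h2 := Finset.sum_mul_sq_le_sq_mul_sq (F ν) (fun v => ‖e ν v‖) (fun v => B ν (S.E R (S.col v)))
    have h3 : ∑ v ∈ F ν, (B ν (S.E R (S.col v))) ^ 2 ≤ ∑ v ∈ Fall, (B ν (S.E R (S.col v))) ^ 2 :=
      Finset.sum_le_sum_of_subset_of_nonneg (Finset.subset_biUnion_of_mem F hν) fun _ _ _ => sq_nonneg _
    calc _ ≤ (∑ v ∈ F ν, ‖e ν v‖ * B ν (S.E R (S.col v))) ^ 2 := pow_le_pow_left₀ (apply_nonneg _ _) h1 2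
      _ ≤ (∑ v ∈ F ν, ‖e ν v‖ ^ 2) * ∑ v ∈ F ν, (B ν (S.E R (S.col v))) ^ 2 := h2
      _ ≤ θ * ∑ v ∈ Fall, (B ν (S.E R (S.col v))) ^ 2 :=
        mul_le_mul (he ν hν) h3 (Finset.sum_nonneg fun _ _ => sq_nonneg _) hθ
  calc _ ≤ ∑ ν ∈ s, θ * ∑ v ∈ Fall, (B ν (S.E R (S.col v))) ^ 2 := Finset.sum_le_sum hrow
    _ = θ * ∑ v ∈ Fall, ∑ ν ∈ s, (B ν (S.E R (S.col v))) ^ 2 := by rw [← Finset.mul_sum, Finset.sum_comm]
    _ ≤ θ * ∑ v ∈ Fall, ‖S.E R (S.col v)‖ ^ 2 :=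
      mul_le_mul_of_nonneg_left (Finset.sum_le_sum fun v _ => hB _) hθ
    _ ≤ θ * (S.D ^ 3 * S.len R) := mul_le_mul_of_nonneg_left (S.sum_col_le Fall R) hθ

/-- **the rows assigned to one attempt** -/
theorem attempt_rows (hM : ∀ i ≤ m, S.IsMask (M i)) (θ : ℝ) (hθ : 0 ≤ θ) (R : List Bool) (k T : ℕ)
    (hB : ∀ h, ∑ ν ∈ s, (B ν h) ^ 2 ≤ ‖h‖ ^ 2) (hloc : ∀ ν ∈ s, ∀ z, B ν (S.E (u ν) z) = B ν z)
    (hu : ∀ ν ∈ s, R <:+ u ν ∧ (u ν).length ≤ R.length + k ∧ s3_gen (S.trA M m g θ) R (u ν) ≤ T) :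
    ∑ ν ∈ s, (B ν (S.Z M (m + 1) (u ν) g)) ^ 2
      ≤ 2 * (((s3_LT T : ℝ) ^ (m + 1)) ^ 2 * ‖S.E R g‖ ^ 2) + 2 * (θ * (S.D ^ 3 * S.len R)) := by
  set tr := S.trA M m g θ with htr
  have h1 := S.attempt_anchor g s B u hM tr R k T hB hloc hu
  have h2 := S.rows_error s B u R hB hloc (fun ν hν => (hu ν hν).1) (fun ν => M m (u ν))
    (fun ν v => S.cf M m g (u ν) v - S.cf M m g (s3_top tr R (u ν)) v) θ hθ (by
      intro ν hν
      by_cases hne : s3_top tr R (u ν) = u ν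
      · rw [hne]; simpa using hθ
      · have := s3_not_tr (hu ν hν).1 hne
        exact not_lt.mp this)
  have h3 : ∀ ν ∈ s, (B ν (S.Z M (m + 1) (u ν) g)) ^ 2
      ≤ 2 * (B ν (S.E (u ν) (S.Z M (m + 1) (s3_top tr R (u ν)) g))) ^ 2
        + 2 * (B ν (∑ v ∈ M m (u ν), (S.cf M m g (u ν) v - S.cf M m g (s3_top tr R (u ν)) v)
            • S.E (u ν) (S.col v))) ^ 2 := by
    intro ν hν
    rw [← S.Z_sub_E_Z g (hM m le_rfl) (s3_top_suffix (hu ν hν).1)]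
    set x := S.E (u ν) (S.Z M (m + 1) (s3_top tr R (u ν)) g)
    set y := S.Z M (m + 1) (u ν) g
    have h4 : B ν y ≤ B ν x + B ν (y - x) := by
      have := map_add_le_add (B ν) x (y - x)
      simpa using this
    have h5 : 0 ≤ B ν y := apply_nonneg _ _
    nlinarith [sq_nonneg (B ν x - B ν (y - x)), apply_nonneg (B ν) x, apply_nonneg (B ν) (y - x)]
  calc ∑ ν ∈ s, (B ν (S.Z M (m + 1) (u ν) g)) ^ 2 ≤ _ := Finset.sum_le_sum h3
    _ ≤ _ := by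
      rw [Finset.sum_add_distrib, ← Finset.mul_sum, ← Finset.mul_sum]
      gcongr

end rows

/-- private coordinates: a transition is seen by `Z_{n+1} - Z_n` on the whole new anchor -/
theorem attempt_jump (hM : ∀ i ≤ m, S.IsMask (M i)) (θ : ℝ) (R : List Bool) (k n : ℕ) {Q : List Bool}
    (hQ : Q ∈ s3_act (S.trA M m g θ) R k (n + 1)) :
    θ * S.len Q ≤ S.D ^ 2 * ‖S.E Q (S.ZG M (S.trA M m g θ) R k (m + 1) (n + 1) (S.E R g)
      - S.ZG M (S.trA M m g θ) R k (m + 1) n (S.E R g))‖ ^ 2 := by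
  set tr := S.trA M m g θ with htr
  obtain ⟨b, w, rfl, hRw, hgen, htrans⟩ := s3_act_succ hQ
  obtain ⟨_, hlen, _, _⟩ := s3_act_spec hQ
  have hwlen : w.length ≤ R.length + k := by
    rw [List.length_cons] at hlen; omega
  have hA' : s3_top tr R w ∈ s3_pi tr R k n := by
    have := s3_top_mem_act (tr := tr) (k := k) hRw hwlen
    rw [hgen] at this
    exact s3_act_subset tr R k n this
  have hsuf : s3_top tr R w <:+ b :: w := (s3_top_suffix hRw).trans (List.suffix_cons b w)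
  rw [map_sub, S.E_ZG g tr R k (n + 1) (s3_act_subset tr R k _ hQ) (List.suffix_refl _), S.E_ZG g tr R k n hA' hsuf,
    Z_succ, S.E_P, ← Z_succ, S.Z_sub_E_Z g (hM m le_rfl) hsuf]
  have hlow := S.col_lower (b :: w) (M m (b :: w)) ((hM m le_rfl).avail (b :: w))
    (fun v => S.cf M m g (b :: w) v - S.cf M m g (s3_top tr R w) v)
  have hl := S.len_pos (b :: w)
  have ht : θ < ∑ v ∈ M m (b :: w), ‖S.cf M m g (b :: w) v - S.cf M m g (s3_top tr R w) v‖ ^ 2 := htrans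
  calc θ * S.len (b :: w) ≤ S.len (b :: w) * ∑ v ∈ M m (b :: w), ‖S.cf M m g (b :: w) v - S.cf M m g (s3_top tr R w) v‖ ^ 2 := by
        rw [mul_comm]; exact mul_le_mul_of_nonneg_left ht.le hl.le
    _ ≤ _ := hlow

/-- **the new roots of one attempt** -/
theorem attempt_roots (hM : ∀ i ≤ m, S.IsMask (M i)) (θ : ℝ) (hθ : 0 ≤ θ) (R : List Bool) (k T : ℕ) :
    (T : ℝ) * θ * ∑ R' ∈ s3_act (S.trA M m g θ) R k T, S.len R'
      ≤ S.D ^ 2 * ((((m + 1 : ℕ) : ℝ) * (s3_LT T : ℝ) ^ m) ^ 2 * ‖S.E R g‖ ^ 2) := by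
  set tr := S.trA M m g θ with htr
  have hdiff := s3_prefix_diff (fun i n => S.PP (M i) (s3_pi tr R k n)) (m + 1) T
    (fun i hi => (hM i (Nat.lt_succ_iff.mp hi)).nested tr R k) (S.E R g)
  have hstep : ∀ n ∈ Finset.range T, θ * ∑ R' ∈ s3_act tr R k T, S.len R'
      ≤ S.D ^ 2 * ‖S.ZG M tr R k (m + 1) (n + 1) (S.E R g) - S.ZG M tr R k (m + 1) n (S.E R g)‖ ^ 2 := by
    intro n hn
    have hn' : n + 1 ≤ T := Finset.mem_range.mp hn
    set y := S.ZG M tr R k (m + 1) (n + 1) (S.E R g) - S.ZG M tr R k (m + 1) n (S.E R g) with hy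
    calc θ * ∑ R' ∈ s3_act tr R k T, S.len R' ≤ θ * ∑ Q ∈ s3_act tr R k (n + 1), S.len Q := by
          exact mul_le_mul_of_nonneg_left
            (s3_act_sum_anti S.len (fun w => (S.len_pos w).le) S.len_split hn') hθ
      _ = ∑ Q ∈ s3_act tr R k (n + 1), θ * S.len Q := by rw [Finset.mul_sum]
      _ ≤ ∑ Q ∈ s3_act tr R k (n + 1), S.D ^ 2 * ‖S.E Q y‖ ^ 2 :=
          Finset.sum_le_sum fun Q hQ => S.attempt_jump g hM θ R k n hQ
      _ = S.D ^ 2 * ∑ Q ∈ s3_act tr R k (n + 1), ‖S.E Q y‖ ^ 2 := by rw [Finset.mul_sum]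
      _ ≤ S.D ^ 2 * ‖y‖ ^ 2 := by
          gcongr
          calc ∑ Q ∈ s3_act tr R k (n + 1), ‖S.E Q y‖ ^ 2 ≤ ‖S.E R y‖ ^ 2 :=
                s3_act_sum_le (fun Q => ‖S.E Q y‖ ^ 2) (fun _ => sq_nonneg _) (fun w => S.normsq_split w y)
            _ ≤ ‖y‖ ^ 2 := by gcongr; exact S.norm_E_le R y
  calc (T : ℝ) * θ * ∑ R' ∈ s3_act tr R k T, S.len R'
      = ∑ n ∈ Finset.range T, θ * ∑ R' ∈ s3_act tr R k T, S.len R' := by simp; ring
    _ ≤ ∑ n ∈ Finset.range T, S.D ^ 2 *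
          ‖S.ZG M tr R k (m + 1) (n + 1) (S.E R g) - S.ZG M tr R k (m + 1) n (S.E R g)‖ ^ 2 := Finset.sum_le_sum hstep
    _ = S.D ^ 2 * ∑ n ∈ Finset.range T,
          ‖S.ZG M tr R k (m + 1) (n + 1) (S.E R g) - S.ZG M tr R k (m + 1) n (S.E R g)‖ ^ 2 := by rw [Finset.mul_sum]
    _ ≤ _ := by
      gcongr
      simpa [ZG] using hdiff

end s3_Sys

end Claimed.Agent.R258
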