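/-
Row 258 (S0498), block [S3] = Sec. 3 compression.tex (architect helper93).
`lem:compression`: summation of the attempts inside one size segment = compression for a BOUNDED input `g`
(`‖1_w g‖² ≤ (G a)² |w|` on all cells), abstract system.  Number of layers `m + 1`.
-/
import Claimed.Agent.R258.S3.Attempt

set_option autoImplicit false
set_option linter.unusedSectionVars false

namespace Claimed.Agent.R258

open scoped InnerProductSpace

/-- `G = 4 D⁵` -/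
noncomputable def s3_G (D : ℝ) : ℝ := 4 * D ^ 5
/-- `τ = D^{-10}` -/
noncomputable def s3_tau (D : ℝ) : ℝ := (D ^ 10)⁻¹
/-- the numerical condition on the number `T` of transitions of an attempt (`m + 1` layers): it makes `E ≤ 1/2` -/
def s3_TOk (D : ℝ) (m T : ℕ) : Prop :=
  1 ≤ T ∧ 32 * D ^ 32 * (((m + 1 : ℕ) : ℝ) * (s3_LT T : ℝ) ^ m) ^ 2 ≤ (T : ℝ)

variable {𝕜 X V : Type*} [RCLike 𝕜] [NormedAddCommGroup X] [InnerProductSpace 𝕜 X]

namespace s3_Sys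

variable (S : s3_Sys 𝕜 X V) {M : ℕ → List Bool → Finset V} {m : ℕ} (g : X) {T : ℕ}

/-- length and energy contraction of the new roots of an attempt -/
theorem attempt_contract (hT : s3_TOk S.D m T) (hM : ∀ i ≤ m, S.IsMask (M i)) (a : ℝ) (ha : 0 < a)
    (hg : ∀ w, ‖S.E w g‖ ^ 2 ≤ (s3_G S.D * a) ^ 2 * S.len w) (R : List Bool) (k : ℕ) :
    2 * ∑ R' ∈ s3_act (S.trA M m g ((s3_tau S.D * a) ^ 2)) R k T, S.len R' ≤ S.len R ∧
    2 * ∑ R' ∈ s3_act (S.trA M m g ((s3_tau S.D * a) ^ 2)) R k T, ‖S.E R' g‖ ^ 2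
      ≤ ‖S.E R g‖ ^ 2 := by
  have hD := S.D_pos
  have h0 := S.attempt_roots g hM ((s3_tau S.D * a) ^ 2) (sq_nonneg _) R k T
  set μ : ℝ := ∑ R' ∈ s3_act (S.trA M m g ((s3_tau S.D * a) ^ 2)) R k T, S.len R' with hμ
  set S2 : ℝ := ∑ R' ∈ s3_act (S.trA M m g ((s3_tau S.D * a) ^ 2)) R k T, ‖S.E R' g‖ ^ 2 with hS2
  set c : ℝ := (((m + 1 : ℕ) : ℝ) * (s3_LT T : ℝ) ^ m) ^ 2 with hc
  set N2 : ℝ := ‖S.E R g‖ ^ 2 with hN2
  set t : ℝ := (T : ℝ) with ht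
  have ht1 : (1 : ℝ) ≤ t := by rw [ht]; exact_mod_cast hT.1
  have htpos : 0 < t := by linarith
  have hTc : 32 * S.D ^ 32 * c ≤ t := hT.2
  have hc0 : 0 ≤ c := sq_nonneg _
  have hN0 : 0 ≤ N2 := sq_nonneg _
  have hμ0 : 0 ≤ μ := Finset.sum_nonneg fun w _ => (S.len_pos w).le
  have hl := S.len_pos R
  have ha2 : 0 < a ^ 2 := pow_pos ha 2
  have hθ : (s3_tau S.D * a) ^ 2 * (S.D ^ 10) ^ 2 = a ^ 2 := by
    unfold s3_tau; field_simp
  have h1 : t * a ^ 2 * μ ≤ S.D ^ 22 * c * N2 := by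
    calc t * a ^ 2 * μ = (t * (s3_tau S.D * a) ^ 2 * μ) * (S.D ^ 10) ^ 2 := by rw [← hθ]; ring
      _ ≤ (S.D ^ 2 * (c * N2)) * (S.D ^ 10) ^ 2 := mul_le_mul_of_nonneg_right h0 (by positivity)
      _ = S.D ^ 22 * c * N2 := by ring
  have hgR : N2 ≤ 16 * S.D ^ 10 * a ^ 2 * S.len R := by
    have := hg R
    unfold s3_G at this
    calc N2 ≤ (4 * S.D ^ 5 * a) ^ 2 * S.len R := this
      _ = 16 * S.D ^ 10 * a ^ 2 * S.len R := by ring
  constructor
  · have h2 : t * a ^ 2 * μ ≤ (16 * S.D ^ 32 * c) * (a ^ 2 * S.len R) := by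
      calc t * a ^ 2 * μ ≤ S.D ^ 22 * c * N2 := h1
        _ ≤ S.D ^ 22 * c * (16 * S.D ^ 10 * a ^ 2 * S.len R) := mul_le_mul_of_nonneg_left hgR (by positivity)
        _ = (16 * S.D ^ 32 * c) * (a ^ 2 * S.len R) := by ring
    have h3 : (16 * S.D ^ 32 * c) * (a ^ 2 * S.len R) ≤ (t / 2) * (a ^ 2 * S.len R) :=
      mul_le_mul_of_nonneg_right (by linarith) (by positivity)
    have h4 : (t * a ^ 2) * (2 * μ) ≤ (t * a ^ 2) * S.len R := by
      have e1 : (t * a ^ 2) * (2 * μ) = 2 * (t * a ^ 2 * μ) := by ring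
      have e2 : (t * a ^ 2) * S.len R = 2 * ((t / 2) * (a ^ 2 * S.len R)) := by ring
      rw [e1, e2]; linarith
    exact le_of_mul_le_mul_left h4 (by positivity)
  · have h2 : S2 ≤ 16 * S.D ^ 10 * a ^ 2 * μ := by
      rw [hS2, hμ, Finset.mul_sum]
      apply Finset.sum_le_sum
      intro R' _
      have := hg R'
      unfold s3_G at this
      calc ‖S.E R' g‖ ^ 2 ≤ (4 * S.D ^ 5 * a) ^ 2 * S.len R' := this
        _ = 16 * S.D ^ 10 * a ^ 2 * S.len R' := by ring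
    have h3 : t * (2 * S2) ≤ t * N2 := by
      calc t * (2 * S2) ≤ t * (2 * (16 * S.D ^ 10 * a ^ 2 * μ)) :=
            mul_le_mul_of_nonneg_left (by linarith) htpos.le
        _ = 32 * S.D ^ 10 * (t * a ^ 2 * μ) := by ring
        _ ≤ 32 * S.D ^ 10 * (S.D ^ 22 * c * N2) := mul_le_mul_of_nonneg_left h1 (by positivity)
        _ = (32 * S.D ^ 32 * c) * N2 := by ring
        _ ≤ t * N2 := mul_le_mul_of_nonneg_right hTc hN0
    exact le_of_mul_le_mul_left h3 htpos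

theorem bounded_compression_aux (hT : s3_TOk S.D m T) (hM : ∀ i ≤ m, S.IsMask (M i)) (a : ℝ) (ha : 0 < a)
    (hg : ∀ w, ‖S.E w g‖ ^ 2 ≤ (s3_G S.D * a) ^ 2 * S.len w) (N : ℕ)
    {ι : Type*} (B : ι → Seminorm 𝕜 X) (u : ι → List Bool) :
    ∀ (j : ℕ) (R : List Bool), R.length + j = N → ∀ (s : Finset ι),
    (∀ h, ∑ ν ∈ s, (B ν h) ^ 2 ≤ ‖h‖ ^ 2) → (∀ ν ∈ s, ∀ z, B ν (S.E (u ν) z) = B ν z) →
    (∀ ν ∈ s, R <:+ u ν ∧ (u ν).length ≤ N) →
    ∑ ν ∈ s, (B ν (S.Z M (m + 1) (u ν) g)) ^ 2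
      ≤ 4 * (((s3_LT T : ℝ) ^ (m + 1)) ^ 2 * ‖S.E R g‖ ^ 2)
        + 4 * ((s3_tau S.D * a) ^ 2 * (S.D ^ 3 * S.len R)) := by
  classical
  intro j
  induction j using Nat.strong_induction_on with
  | _ j ih =>
    intro R hRj s hB hloc hu
    set θ : ℝ := (s3_tau S.D * a) ^ 2 with hθ
    set tr := S.trA M m g θ with htr
    set L2 : ℝ := ((s3_LT T : ℝ) ^ (m + 1)) ^ 2 with hL2
    have hT1 : 1 ≤ T := hT.1
    have hθ0 : 0 ≤ θ := sq_nonneg _
    have hL20 : 0 ≤ L2 := sq_nonneg _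
    have hD0 : 0 < S.D := S.D_pos
    set f : ι → ℝ := fun ν => (B ν (S.Z M (m + 1) (u ν) g)) ^ 2 with hf
    have hf0 : ∀ ν, 0 ≤ f ν := fun ν => sq_nonneg _
    obtain ⟨hc1, hc2⟩ := S.attempt_contract g hT hM a ha hg R j
    -- rows of the attempt
    have hsub : ∀ (p : ι → Prop) [DecidablePred p], ∀ h, ∑ ν ∈ s.filter p, (B ν h) ^ 2 ≤ ‖h‖ ^ 2 := by
      intro p _ h
      exact (Finset.sum_le_sum_of_subset_of_nonneg (Finset.filter_subset _ _)
        (fun _ _ _ => sq_nonneg _)).trans (hB h)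
    have h0 : ∑ ν ∈ s.filter (fun ν => s3_gen tr R (u ν) < T), f ν
        ≤ 2 * (L2 * ‖S.E R g‖ ^ 2) + 2 * (θ * (S.D ^ 3 * S.len R)) := by
      refine S.attempt_rows g _ B u hM θ hθ0 R j T (hsub _) ?_ ?_
      · intro ν hν; exact hloc ν (Finset.mem_filter.mp hν).1
      · intro ν hν
        obtain ⟨h1, h2⟩ := Finset.mem_filter.mp hν
        exact ⟨(hu ν h1).1, by rw [hRj]; exact (hu ν h1).2, h2.le⟩
    -- rows below a new root
    have h1 : ∀ R' ∈ s3_act tr R j T, ∑ ν ∈ s.filter (fun ν => R' <:+ u ν), f ν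
        ≤ 4 * (L2 * ‖S.E R' g‖ ^ 2) + 4 * (θ * (S.D ^ 3 * S.len R')) := by
      intro R' hR'
      obtain ⟨hs1, hs2, hs3, -⟩ := s3_act_spec hR'
      have hlen := s3_gen_le_length (tr := tr) hs1
      rw [hs3] at hlen
      refine ih (N - R'.length) (by omega) R' (by omega) _ (hsub _) ?_ ?_
      · intro ν hν; exact hloc ν (Finset.mem_filter.mp hν).1
      · intro ν hν
        obtain ⟨h1, h2⟩ := Finset.mem_filter.mp hν
        exact ⟨h2, (hu ν h1).2⟩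
    -- covering
    have h2 : ∑ ν ∈ s.filter (fun ν => ¬ s3_gen tr R (u ν) < T), f ν
        ≤ ∑ R' ∈ s3_act tr R j T, ∑ ν ∈ s.filter (fun ν => R' <:+ u ν), f ν := by
      calc ∑ ν ∈ s.filter (fun ν => ¬ s3_gen tr R (u ν) < T), f ν
          ≤ ∑ ν ∈ s.filter (fun ν => ¬ s3_gen tr R (u ν) < T),
              ∑ R' ∈ s3_act tr R j T, if R' <:+ u ν then f ν else 0 := by
            refine Finset.sum_le_sum fun ν hν => ?_
            obtain ⟨h1, h2⟩ := Finset.mem_filter.mp hν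
            obtain ⟨R', hR', hR'u⟩ := s3_exists_act (tr := tr) (k := j) (hu ν h1).1
              (by rw [hRj]; exact (hu ν h1).2) (not_lt.mp h2)
            calc f ν = if R' <:+ u ν then f ν else 0 := by rw [if_pos hR'u]
              _ ≤ _ := Finset.single_le_sum (f := fun R' => if R' <:+ u ν then f ν else 0)
                  (fun i _ => by split_ifs <;> simp [hf0]) hR'
        _ ≤ ∑ ν ∈ s, ∑ R' ∈ s3_act tr R j T, if R' <:+ u ν then f ν else 0 := by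
            refine Finset.sum_le_sum_of_subset_of_nonneg (Finset.filter_subset _ _) fun ν _ _ => ?_
            exact Finset.sum_nonneg fun i _ => by split_ifs <;> simp [hf0]
        _ = ∑ R' ∈ s3_act tr R j T, ∑ ν ∈ s.filter (fun ν => R' <:+ u ν), f ν := by
            rw [Finset.sum_comm]
            refine Finset.sum_congr rfl fun R' _ => ?_
            rw [Finset.sum_filter]
    have h3 : ∑ R' ∈ s3_act tr R j T, ∑ ν ∈ s.filter (fun ν => R' <:+ u ν), f ν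
        ≤ 4 * (L2 * ∑ R' ∈ s3_act tr R j T, ‖S.E R' g‖ ^ 2)
          + 4 * (θ * (S.D ^ 3 * ∑ R' ∈ s3_act tr R j T, S.len R')) := by
      refine (Finset.sum_le_sum h1).trans (le_of_eq ?_)
      simp only [Finset.sum_add_distrib, Finset.mul_sum]
    have h4 : ∑ ν ∈ s, f ν = ∑ ν ∈ s.filter (fun ν => s3_gen tr R (u ν) < T), f ν
        + ∑ ν ∈ s.filter (fun ν => ¬ s3_gen tr R (u ν) < T), f ν :=
      (Finset.sum_filter_add_sum_filter_not s _ _).symm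
    have h5 : L2 * (2 * ∑ R' ∈ s3_act tr R j T, ‖S.E R' g‖ ^ 2) ≤ L2 * ‖S.E R g‖ ^ 2 :=
      mul_le_mul_of_nonneg_left hc2 hL20
    have h6 : θ * (S.D ^ 3 * (2 * ∑ R' ∈ s3_act tr R j T, S.len R')) ≤ θ * (S.D ^ 3 * S.len R) :=
      mul_le_mul_of_nonneg_left (mul_le_mul_of_nonneg_left hc1 (by positivity)) hθ0
    rw [h4]
    linarith [h0, h2, h3, h5, h6]

/-- **Compression for a bounded input.** -/
theorem bounded_compression (hT : s3_TOk S.D m T) (hM : ∀ i ≤ m, S.IsMask (M i)) (a : ℝ) (ha : 0 ≤ a)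
    (hg : ∀ w, ‖S.E w g‖ ^ 2 ≤ (s3_G S.D * a) ^ 2 * S.len w) (N : ℕ)
    {ι : Type*} (B : ι → Seminorm 𝕜 X) (u : ι → List Bool) (R : List Bool) (hR : R.length ≤ N) (s : Finset ι)
    (hB : ∀ h, ∑ ν ∈ s, (B ν h) ^ 2 ≤ ‖h‖ ^ 2) (hloc : ∀ ν ∈ s, ∀ z, B ν (S.E (u ν) z) = B ν z)
    (hu : ∀ ν ∈ s, R <:+ u ν ∧ (u ν).length ≤ N) :
    ∑ ν ∈ s, (B ν (S.Z M (m + 1) (u ν) g)) ^ 2
      ≤ 4 * (((s3_LT T : ℝ) ^ (m + 1)) ^ 2 * ‖S.E R g‖ ^ 2)
        + 4 * ((s3_tau S.D * a) ^ 2 * (S.D ^ 3 * S.len R)) := by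
  rcases ha.eq_or_lt with ha0 | ha0
  · -- `a = 0`: the input vanishes on `R`
    have h0 : S.E R g = 0 := by
      have := hg R
      rw [← ha0] at this
      have h1 : ‖S.E R g‖ ^ 2 ≤ 0 := by simpa using this
      have h2 : ‖S.E R g‖ = 0 := by nlinarith [norm_nonneg (S.E R g)]
      exact norm_eq_zero.mp h2
    have h1 : ∀ ν ∈ s, (B ν (S.Z M (m + 1) (u ν) g)) ^ 2 = 0 := by
      intro ν hν
      rw [← S.Z_E M m (hu ν hν).1 g, h0]; simp
    rw [Finset.sum_eq_zero h1]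
    have := S.len_pos R
    have := S.D_pos
    positivity
  · exact S.bounded_compression_aux g hT hM a ha0 hg N B u (N - R.length) R (by omega) s hB hloc hu

end s3_Sys

end Claimed.Agent.R258
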